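import Mathlib
import Vale.Agent.P277.H29.PH.FinO
import Vale.Agent.P277.H60.L.StDbar
import Vale.Agent.P277.H60.L.Schwartz
import Vale.Agent.P277.H60.L.HB

/-!
# A meromorphic function with one pole on a compact Riemann surface
-/

namespace Vale.Agent.P002Z

open Set Filter Topology Metric Vale.Agent.P272.K Vale.Agent.P277.PH
open scoped Manifold ContDiff

variable {M : Type} [TopologicalSpace M] [ChartedSpace ℂ M]

/-- the identification of `ℂ` with `ℂ¹` -/
noncomputable def L1 : ℂ ≃L[ℂ] Cm 1 := (ContinuousLinearEquiv.funUnique (Fin 1) ℂ ℂ).symm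

/-- a chart with values in `ℂ¹` -/
noncomputable def ch1 (e : OpenPartialHomeomorph M ℂ) : Chart 1 M :=
  e.transHomeomorph L1.toHomeomorph

/-- the charted space over `ℂ¹` -/
@[reducible] noncomputable def cs1 (M : Type) [TopologicalSpace M] [ChartedSpace ℂ M] :
    ChartedSpace (Cm 1) M where
  atlas := ch1 '' atlas ℂ M
  chartAt x := ch1 (chartAt ℂ x)
  mem_chart_source x := mem_chart_source ℂ x
  chart_mem_atlas x := ⟨_, chart_mem_atlas ℂ x, rfl⟩

theorem trans_analytic [IsManifold 𝓘(ℂ) 1 M] {e e' : OpenPartialHomeomorph M ℂ}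
    (he : e ∈ atlas ℂ M) (he' : e' ∈ atlas ℂ M) :
    AnalyticOnNhd ℂ (fun z => e' (e.symm z)) (e.symm ≫ₕ e').source := by
  have h := ((contDiffGroupoid 1 𝓘(ℂ)).compatible he he').1
  have h1 : ContDiffOn ℂ 1 (fun z => e' (e.symm z)) (e.symm ≫ₕ e').source := by
    simpa [contDiffPregroupoid, Function.comp_def] using h
  exact (h1.differentiableOn one_ne_zero).analyticOnNhd (e.symm ≫ₕ e').open_source

theorem isManifold1 [IsManifold 𝓘(ℂ) 1 M] :
    letI := cs1 M
    IsManifold 𝓘(ℂ, Cm 1) ω M := by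
  let _ := cs1 M
  refine isManifold_of_contDiffOn _ _ _ ?_
  rintro _ _ ⟨e, he, rfl⟩ ⟨e', he', rfl⟩
  have h := (trans_analytic he he').contDiffOn_of_completeSpace (n := ω)
  have h2 := L1.contDiff.comp_contDiffOn (h.comp (s := L1.symm ⁻¹' (e.symm ≫ₕ e').source)
    L1.symm.contDiff.contDiffOn fun _ h => h)
  refine h2.congr_mono (fun _ _ => rfl) ?_
  rintro w ⟨hw, -⟩
  exact hw

theorem exists_pole [T2Space M] [CompactSpace M] [IsManifold 𝓘(ℂ) 1 M] (a : M) :
    ∃ f : M → ℂ, (∀ e ∈ atlas ℂ M, ∀ x ∈ e.source, x ≠ a →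
        AnalyticAt ℂ (fun z => f (e.symm z)) (e x)) ∧
      MeromorphicAt (fun z => f ((chartAt ℂ a).symm z)) (chartAt ℂ a a) ∧
      Tendsto (fun y => ‖f y‖) (𝓝[≠] a) atTop := by
  classical
  let _ := cs1 M
  have _ : IsManifold 𝓘(ℂ, Cm 1) ω M := isManifold1
  have hAt : ∀ e ∈ atlas ℂ M, ∀ x ∈ e.source, At (ch1 e) x := fun e he x hx => ⟨⟨e, he, rfl⟩, hx⟩
  have hol1 : ∀ (g : M → ℂ) (x : M), HolF 1 g x → ∀ e ∈ atlas ℂ M, x ∈ e.source →
      AnalyticAt ℂ (fun z => g (e.symm z)) (e x) := by
    intro g x h e he hx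
    have h1 : AnalyticAt ℂ (fun w => g (e.symm (L1.symm w))) (L1 (e x)) := h _ (hAt e he x hx)
    have h2 := h1.comp (L1.toContinuousLinearMap.analyticAt (e x))
    refine h2.congr (Eventually.of_forall fun z => ?_)
    simp
  have hol2 : ∀ (g : M → ℂ) (x : M), ∀ e ∈ atlas ℂ M, x ∈ e.source →
      AnalyticAt ℂ (fun z => g (e.symm z)) (e x) → HolF 1 g x := by
    intro g x e he hx h
    refine holF_of (hAt e he x hx) ?_
    refine AnalyticAt.comp (g := fun z => g (e.symm z)) (f := L1.symm) (x := L1 (e x)) ?_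
      (L1.symm.toContinuousLinearMap.analyticAt _)
    rw [L1.symm_apply_apply]
    exact h
  have sm2 : ∀ (g : M → ℂ) (x : M), ∀ e ∈ atlas ℂ M, x ∈ e.source →
      ContDiffAt ℝ ∞ (fun z => g (e.symm z)) (e x) → SmF 1 g x := by
    intro g x e he hx h
    refine smF_of (hAt e he x hx) ?_
    refine ContDiffAt.comp (g := fun z => g (e.symm z)) (f := L1.symm) (L1 (e x)) ?_
      ((L1.symm.contDiff (n := ∞)).restrict_scalars ℝ).contDiffAt
    rw [L1.symm_apply_apply]
    exact h
  obtain ⟨h, hh⟩ := stFinO_of Vale.Agent.P277.H60.L.stDbar Vale.Agent.P277.H60.L.stSchwartz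
    Vale.Agent.P277.H60.L.stHBc Vale.Agent.P277.H60.L.stMontel 1 M
  set e := chartAt ℂ a with he
  have hea : e ∈ atlas ℂ M := chart_mem_atlas ℂ a
  have ha : a ∈ e.source := mem_chart_source ℂ a
  set c := e a with hc
  obtain ⟨ε, hε, hb⟩ := Metric.nhds_basis_closedBall.mem_iff.1
    (e.open_target.mem_nhds (e.map_source ha))
  let χ : ContDiffBump c := ⟨ε / 2, ε, by positivity, by linarith⟩
  let G : ℕ → ℂ → ℂ := fun k z => (χ z : ℂ) * ((z - c)⁻¹) ^ (k + 1)
  let g : ℕ → M → ℂ := fun k y => if y ∈ e.source then G k (e y) else 0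
  have hg : ∀ k, ∀ z ∈ e.target, g k (e.symm z) = G k z := fun k z hz => by
    simp only [g, if_pos (e.map_target hz), e.right_inv hz]
  have hne : ∀ x ∈ e.source, x ≠ a → e x - c ≠ 0 := fun x hx hxa h =>
    hxa (e.injOn hx ha (sub_eq_zero.1 h))
  let U : Bool → Set M := fun i => if i then e.source ∩ e ⁻¹' ball c (ε / 2) else {a}ᶜ
  have hU : ∀ i, IsOpen (U i) := by
    intro i
    cases i
    · exact isOpen_compl_singleton
    · exact e.isOpen_inter_preimage isOpen_ball
  have hgball : ∀ k, ∀ z ∈ ball c (ε / 2), g k (e.symm z) = ((z - c)⁻¹) ^ (k + 1) := by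
    intro k z hz
    rw [hg k z (hb (closedBall_subset_closedBall (by linarith) (ball_subset_closedBall hz)))]
    simp only [G]
    rw [χ.one_of_mem_closedBall (ball_subset_closedBall hz)]
    simp
  have hghol : ∀ k, ∀ x ∈ U true, x ≠ a → HolF 1 (g k) x := by
    rintro k x ⟨hx, hx'⟩ hxa
    refine hol2 _ x e hea hx ?_
    have h1 : AnalyticAt ℂ (fun z : ℂ => ((z - c)⁻¹) ^ (k + 1)) (e x) :=
      ((analyticAt_id.sub analyticAt_const).inv (hne x hx hxa)).pow _
    refine h1.congr ?_
    filter_upwards [isOpen_ball.mem_nhds hx'] with z hz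
    exact (hgball k z hz).symm
  obtain ⟨t, φ, ht, -, hφ⟩ := hh (h + 1) (Nat.lt_succ_self h) (fun _ => Bool) (fun _ => U)
    (fun k i => if i then fun _ => 0 else g k) (fun _ => hU) (by
      intro k x
      by_cases hx : x = a
      · exact ⟨true, hx ▸ ha, by rw [hx]; exact mem_ball_self (by positivity)⟩
      · exact ⟨false, hx⟩) (by
      intro k i x hx
      cases i
      · change SmF 1 (g k) x
        by_cases hxs : x ∈ e.source
        · refine sm2 _ x e hea hxs ?_
          have h1 : ContDiffAt ℝ ∞ (G k) (e x) := by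
            refine ContDiffAt.mul
              (Complex.ofRealCLM.contDiff.contDiffAt.comp _ χ.contDiff.contDiffAt) ?_
            exact ((contDiffAt_id.sub contDiffAt_const).inv (hne x hxs hx)).pow _
          refine h1.congr_of_eventuallyEq ?_
          filter_upwards [e.open_target.mem_nhds (e.map_source hxs)] with z hz
          exact hg k z hz
        · have hK : IsCompact (e.symm '' closedBall c ε) :=
            (isCompact_closedBall c ε).image_of_continuousOn (e.continuousOn_symm.mono hb)
          refine (SmF.const 0).congr ?_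
          filter_upwards [hK.isClosed.isOpen_compl.mem_nhds (show x ∈ _ by
            rintro ⟨z, hz, rfl⟩
            exact hxs (e.map_target (hb hz)))] with y hy
          by_cases hys : y ∈ e.source
          · have h1 : ε ≤ dist (e y) c := by
              by_contra hcon
              exact hy ⟨e y, mem_closedBall.2 (not_le.1 hcon).le, e.left_inv hys⟩
            simp only [g, if_pos hys, G]
            rw [χ.zero_of_le_dist h1]
            simp
          · simp only [g, if_neg hys]
      · exact SmF.const 0) (by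
      rintro k i j x ⟨hi, hj⟩
      cases i <;> cases j
      · exact (HolF.const 0).congr (Eventually.of_forall fun y => by simp)
      · exact (hghol k x hj hi).congr (Eventually.of_forall fun y => by simp)
      · exact (hghol k x hi hj).neg.congr (Eventually.of_forall fun y => by simp)
      · exact (HolF.const 0).congr (Eventually.of_forall fun y => by simp))
  have hφa : AnalyticAt ℂ (fun z => φ (e.symm z)) c := by
    have h1 := hφ (fun _ => true) a fun _ => ⟨ha, mem_ball_self (by positivity)⟩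
    exact hol1 φ a (h1.congr (Eventually.of_forall fun y => by simp)) e hea ha
  let P : Polynomial ℂ := ∑ k : Fin (h + 1), Polynomial.monomial (k + 1) (t k : ℂ)
  have hP : ∀ w, P.eval w = ∑ k : Fin (h + 1), (t k : ℂ) * w ^ ((k : ℕ) + 1) := fun w => by
    simp [P, Polynomial.eval_finsetSum]
  have hPdeg : 0 < P.degree := by
    obtain ⟨k, hk⟩ := Function.ne_iff.1 ht
    have h1 : P.coeff (k + 1) = t k := by
      simp only [P, Polynomial.finsetSum_coeff, Polynomial.coeff_monomial]
      rw [Finset.sum_eq_single k]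
      · simp
      · intro l _ hl
        rw [if_neg]
        intro h
        exact hl (Fin.ext (Nat.succ_injective h))
      · simp
    have h2 : P.coeff (k + 1) ≠ 0 := by
      rw [h1]
      exact_mod_cast hk
    exact lt_of_lt_of_le (by exact_mod_cast Nat.succ_pos k) (Polynomial.le_degree_of_ne_zero h2)
  have hf : ∀ z ∈ ball c (ε / 2), ∑ k : Fin (h + 1), (t k : ℂ) * g k (e.symm z) + φ (e.symm z) =
      P.eval (z - c)⁻¹ + φ (e.symm z) := by
    intro z hz
    rw [hP]
    congr 1
    exact Finset.sum_congr rfl fun k _ => by rw [hgball k z hz]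
  refine ⟨fun y => ∑ k : Fin (h + 1), (t k : ℂ) * g k y + φ y, fun e' he' x hx hxa => ?_, ?_, ?_⟩
  · exact hol1 _ x (hφ (fun _ => false) x fun _ => hxa) e' he' hx
  · have h1 : MeromorphicAt (fun z => P.eval (z - c)⁻¹ + φ (e.symm z)) c := by
      refine MeromorphicAt.add ?_ hφa.meromorphicAt
      simp only [hP]
      refine MeromorphicAt.fun_sum fun k _ => ?_
      exact (MeromorphicAt.const _ _).mul
        (((MeromorphicAt.id c).sub (MeromorphicAt.const c c)).inv.pow _)
    refine h1.congr ?_
    filter_upwards [mem_nhdsWithin_of_mem_nhds (ball_mem_nhds c (by positivity : 0 < ε / 2))]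
      with z hz
    exact (hf z hz).symm
  · have h1 : Tendsto (fun z : ℂ => ‖P.eval (z - c)⁻¹ + φ (e.symm z)‖) (𝓝[≠] c) atTop := by
      have h2 : Tendsto (fun z : ℂ => ‖P.eval (z - c)⁻¹‖) (𝓝[≠] c) atTop := by
        refine P.tendsto_norm_atTop hPdeg ?_
        simp only [norm_inv]
        exact tendsto_inv_nhdsGT_zero.comp (tendsto_norm_sub_self_nhdsNE c)
      have h3 : Tendsto (fun z : ℂ => -‖φ (e.symm z)‖) (𝓝[≠] c) (𝓝 (-‖φ (e.symm c)‖)) :=
        (hφa.continuousAt.norm.neg).mono_left nhdsWithin_le_nhds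
      refine tendsto_atTop_mono (fun z => ?_) (h2.atTop_add h3)
      have := norm_sub_norm_le (P.eval (z - c)⁻¹) (-φ (e.symm z))
      rw [norm_neg, sub_neg_eq_add] at this
      linarith
    have h4 : Tendsto e (𝓝[≠] a) (𝓝[≠] c) := by
      refine tendsto_nhdsWithin_iff.2 ⟨(e.continuousAt ha).mono_left nhdsWithin_le_nhds, ?_⟩
      filter_upwards [self_mem_nhdsWithin, mem_nhdsWithin_of_mem_nhds (e.open_source.mem_nhds ha)]
        with y h1 h2 h3
      exact h1 (e.injOn h2 ha h3)
    refine (h1.comp h4).congr' ?_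
    filter_upwards [mem_nhdsWithin_of_mem_nhds ((hU true).mem_nhds
      ⟨ha, mem_ball_self (by positivity)⟩)] with y hy
    have h5 := hf (e y) hy.2
    rw [e.left_inv hy.1] at h5
    simp only [Function.comp]
    rw [e.left_inv hy.1, h5]

end Vale.Agent.P002Z
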