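import Vale.Agent.P002Z.Surf
import Vale.Agent.P002Z.Pole

/-!
# A compact Riemann surface is a branched covering of the sphere
-/

namespace Vale.Agent.P002Z

open Set Filter Topology Metric OnePoint
open scoped Manifold

variable {M : Type} [TopologicalSpace M] [ChartedSpace ℂ M] [T2Space M] [CompactSpace M]
  [ConnectedSpace M] [IsManifold 𝓘(ℂ) 1 M]

theorem exists_branched : ∃ F : M → OnePoint ℂ, Continuous F ∧ (∀ c, (F ⁻¹' {c}).Finite) ∧
    ∃ C : Set M, C.Finite ∧ IsLocalHomeomorphOn F Cᶜ := by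
  classical
  obtain ⟨a⟩ : Nonempty M := inferInstance
  obtain ⟨f, hf, hmer, hinf⟩ := exists_pole a
  have hne : ∀ x : M, ∀ᶠ y in 𝓝[≠] x, y ≠ a := fun x =>
    eventually_notMem_of_finite (finite_singleton a) x
  have hback : ∀ (x : M) (P : ℂ → Prop), (∀ᶠ z in 𝓝 (chartAt ℂ x x),
      P (f ((chartAt ℂ x).symm z))) → ∀ᶠ y in 𝓝 x, P (f y) := by
    intro x P h
    have hx := mem_chart_source ℂ x
    filter_upwards [((chartAt ℂ x).continuousAt hx).eventually h,
      (chartAt ℂ x).open_source.mem_nhds hx] with y h1 h2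
    rwa [(chartAt ℂ x).left_inv h2] at h1
  have hbackNE : ∀ (x : M) (P : ℂ → Prop), (∀ᶠ z in 𝓝[≠] (chartAt ℂ x x),
      P (f ((chartAt ℂ x).symm z))) → ∀ᶠ y in 𝓝[≠] x, P (f y) := by
    intro x P h
    have hx := mem_chart_source ℂ x
    filter_upwards [(tendsto_chart (chartAt ℂ x) hx).eventually h,
      mem_nhdsWithin_of_mem_nhds ((chartAt ℂ x).open_source.mem_nhds hx)] with y h1 h2
    rwa [(chartAt ℂ x).left_inv h2] at h1
  have hdich : ∀ x ≠ a, ∀ c, (∀ᶠ y in 𝓝 x, f y = c) ∨ ∀ᶠ y in 𝓝[≠] x, f y ≠ c := by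
    intro x hx c
    rcases (hf _ (chart_mem_atlas ℂ x) x (mem_chart_source ℂ x) hx).eventually_eq_or_eventually_ne
      (analyticAt_const (v := c)) with h | h
    · exact Or.inl (hback x (fun w => w = c) h)
    · exact Or.inr (hbackNE x (fun w => w ≠ c) h)
  have hNC : ∀ x ≠ a, ∀ c, ¬ ∀ᶠ y in 𝓝 x, f y = c := by
    intro x hx c h
    have hsub : {a}ᶜ ⊆ {x | ∀ᶠ y in 𝓝 x, f y = c} := by
      refine (isPathConnected_compl_finite (finite_singleton a)).isConnected.isPreconnected
        |>.subset_of_closure_inter_subset isOpen_setOfPred_eventually_nhds ⟨x, hx, h⟩ ?_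
      rintro y ⟨hy, hya⟩
      rcases hdich y hya c with h1 | h1
      · exact h1
      · exfalso
        obtain ⟨O, hO, hO', hyO⟩ := eventually_nhds_iff.1 (eventually_nhdsWithin_iff.1 h1)
        obtain ⟨y', hy'O, hy'⟩ := mem_closure_iff.1 hy O hO' hyO
        have := neBot_nhdsNE y'
        have h2 : ∀ᶠ w in 𝓝[≠] y', False := by
          filter_upwards [mem_nhdsWithin_of_mem_nhds hy', mem_nhdsWithin_of_mem_nhds
            (hO'.mem_nhds hy'O), eventually_notMem_of_finite (finite_singleton y) y'] with w e1 e2 e3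
          exact hO w e2 e3 e1
        exact h2.exists.elim fun _ h => h
    have := neBot_nhdsNE a
    have h2 : ∀ᶠ w in 𝓝[≠] a, False := by
      filter_upwards [self_mem_nhdsWithin, hinf.eventually (eventually_gt_atTop ‖c‖)] with w e1 e2
      rw [(hsub e1).self_of_nhds] at e2
      exact lt_irrefl _ e2
    exact h2.exists.elim fun _ h => h
  let F : M → OnePoint ℂ := fun x => if x = a then ∞ else (f x : OnePoint ℂ)
  have hF : ∀ x ≠ a, F x = f x := fun x hx => if_neg hx
  have hFa : F a = ∞ := if_pos rfl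
  have hFc : Continuous F := by
    rw [continuous_iff_continuousAt]
    intro x
    by_cases hx : x = a
    · rw [hx, ← continuousWithinAt_compl_self, ContinuousWithinAt, hFa]
      have h1 : Tendsto f (𝓝[≠] a) (coclosedCompact ℂ) := by
        rw [Filter.coclosedCompact_eq_cocompact, ← Metric.cobounded_eq_cocompact]
        exact tendsto_norm_atTop_iff_cobounded.1 hinf
      refine (tendsto_coe_infty.comp h1).congr' ?_
      filter_upwards [self_mem_nhdsWithin] with y hy
      exact (hF y hy).symm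
    · have hx' := mem_chart_source ℂ x
      have h1 : ContinuousAt (fun y => f ((chartAt ℂ x).symm (chartAt ℂ x y))) x :=
        ContinuousAt.comp (f := chartAt ℂ x) (hf _ (chart_mem_atlas ℂ x) x hx' hx).continuousAt
          ((chartAt ℂ x).continuousAt hx')
      refine (continuous_coe.continuousAt.comp h1).congr ?_
      filter_upwards [(chartAt ℂ x).open_source.mem_nhds hx', isOpen_ne.mem_nhds hx] with y e1 e2
      simp only [Function.comp]
      rw [(chartAt ℂ x).left_inv e1, hF y e2]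
  refine ⟨F, hFc, fun c => finite_of_eventually fun x => ?_,
    {x | ¬ ∃ φ : OpenPartialHomeomorph M (OnePoint ℂ), x ∈ φ.source ∧ EqOn F φ φ.source},
    finite_of_eventually fun x => ?_, IsLocalHomeomorphOn.mk _ _ fun x hx => not_not.1 hx⟩
  · by_cases h : F x = c
    · by_cases hx : x = a
      · filter_upwards [hne x] with y hy
        change F y ≠ c
        rw [← h, hx, hFa, hF y hy]
        exact coe_ne_infty _
      · filter_upwards [hne x, (hdich x hx (f x)).resolve_left (hNC x hx _)] with y h1 h2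
        change F y ≠ c
        rw [← h, hF x hx, hF y h1]
        exact fun h3 => h2 (coe_injective h3)
    · exact mem_nhdsWithin_of_mem_nhds (hFc.continuousAt.eventually_ne h)
  · set e := chartAt ℂ x with he
    have hea : e ∈ atlas ℂ M := chart_mem_atlas ℂ x
    have hx : x ∈ e.source := mem_chart_source ℂ x
    have hm : MeromorphicAt (fun z => f (e.symm z)) (e x) := by
      by_cases hxa : x = a
      · subst hxa
        exact hmer
      · exact (hf e hea x hx hxa).meromorphicAt
    have hd : ∀ᶠ z in 𝓝[≠] (e x), deriv (fun z => f (e.symm z)) z ≠ 0 := by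
      refine hm.deriv.eventually_eq_zero_or_eventually_ne_zero.resolve_left fun h => ?_
      have h1 : ∀ᶠ z in 𝓝[≠] (e x), ∀ᶠ w in 𝓝 z, deriv (fun z => f (e.symm z)) w = 0 := by
        filter_upwards [eventually_eventually_nhdsWithin.2 h, self_mem_nhdsWithin] with z e1 e2
        rwa [(isOpen_compl_singleton.nhdsWithin_eq e2)] at e1
      have := neBot_nhdsNE x
      obtain ⟨y, ⟨e1, e2⟩, e3⟩ := ((((tendsto_chart e hx).eventually h1).and (hne x)).and
        (mem_nhdsWithin_of_mem_nhds (e.open_source.mem_nhds hx))).exists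
      have e4 := (hf e hea y e3 e2).eventually_analyticAt
      obtain ⟨r, hr, hb⟩ := Metric.eventually_nhds_iff_ball.1 (e1.and e4)
      obtain ⟨c, hc⟩ := isOpen_ball.exists_is_const_of_deriv_eq_zero
        (convex_ball (e y) r).isPreconnected
        (fun z hz => (hb z hz).2.differentiableAt.differentiableWithinAt) fun z hz => (hb z hz).1
      refine hNC y e2 c ?_
      filter_upwards [(e.continuousAt e3).eventually (ball_mem_nhds (e y) hr),
        e.open_source.mem_nhds e3] with w e5 e6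
      have := hc _ e5
      rwa [e.left_inv e6] at this
    filter_upwards [(tendsto_chart e hx).eventually hd, hne x,
      mem_nhdsWithin_of_mem_nhds (e.open_source.mem_nhds hx)] with y e1 e2 e3
    refine not_not.2 ?_
    have h1 := ((hf e hea y e3 e2).hasStrictDerivAt.hasStrictFDerivAt_equiv e1)
    refine ⟨((e.restrOpen {a}ᶜ isOpen_compl_singleton).trans
      (h1.toOpenPartialHomeomorph _)).trans (isOpenEmbedding_coe.toOpenPartialHomeomorph _),
      ⟨⟨⟨e3, e2⟩, h1.mem_toOpenPartialHomeomorph_source⟩, mem_univ _⟩, ?_⟩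
    rintro w ⟨⟨⟨hw1, hw2⟩, -⟩, -⟩
    change F w = (f (e.symm (e w)) : OnePoint ℂ)
    rw [e.left_inv hw1, hF w hw2]

theorem exists_rotation {B : Set ℂ} (hB : B.Finite) :
    ∃ u : ℂ, u ≠ 0 ∧ InjOn (fun z => (u * z).re) B := by
  have h : ∀ p : ℂ × ℂ, p.1 ≠ p.2 →
      {c : ℝ | (p.1 - p.2).re + c * (p.1 - p.2).im = 0}.Subsingleton := by
    intro p hp c hc c' hc'
    have h1 : (p.1 - p.2).re + c * (p.1 - p.2).im = 0 := hc
    have h2 : (p.1 - p.2).re + c' * (p.1 - p.2).im = 0 := hc'
    by_contra hne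
    have h3 : (p.1 - p.2).im = 0 := by
      have : (c - c') * (p.1 - p.2).im = 0 := by linarith
      exact (mul_eq_zero.1 this).resolve_left (sub_ne_zero.2 hne)
    rw [h3, mul_zero, add_zero] at h1
    exact hp (sub_eq_zero.1 (Complex.ext h1 h3))
  have hfin : (⋃ p ∈ {p ∈ B ×ˢ B | p.1 ≠ p.2},
      {c : ℝ | (p.1 - p.2).re + c * (p.1 - p.2).im = 0}).Finite :=
    ((hB.prod hB).subset fun _ hp => hp.1).biUnion fun p hp => (h p hp.2).finite
  obtain ⟨c, hc⟩ := hfin.infinite_compl.nonempty
  refine ⟨1 - c * Complex.I, fun h0 => ?_, fun z hz w hw hzw => ?_⟩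
  · have := congrArg Complex.re h0
    simp at this
  · by_contra hne
    refine hc (mem_biUnion (x := (z, w)) ⟨⟨hz, hw⟩, hne⟩ ?_)
    have h1 : ((1 - c * Complex.I) * z).re = ((1 - c * Complex.I) * w).re := hzw
    simp only [Complex.mul_re, Complex.sub_re, Complex.one_re, Complex.ofReal_re, Complex.I_re,
      Complex.ofReal_im, Complex.I_im, Complex.sub_im, Complex.one_im, Complex.mul_im] at h1
    change (z - w).re + c * (z - w).im = 0
    rw [Complex.sub_re, Complex.sub_im]
    linarith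

theorem exists_enum {B : Set ℂ} (hB : B.Finite) (h : InjOn Complex.re B) :
    ∃ (n : ℕ) (b : Fin n → ℂ), StrictMono (fun j => (b j).re) ∧ range b = B := by
  classical
  let s : Finset ℝ := (hB.image Complex.re).toFinset
  have h1 : ∀ j : Fin s.card, ∃ z ∈ B, z.re = s.orderEmbOfFin rfl j := fun j =>
    (hB.image Complex.re).mem_toFinset.1 (s.orderEmbOfFin_mem rfl j)
  choose b hb hb' using h1
  refine ⟨s.card, b, ?_, ?_⟩
  · simp only [hb']
    exact (s.orderEmbOfFin rfl).strictMono
  · refine Subset.antisymm (range_subset_iff.2 hb) fun z hz => ?_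
    have h2 : z.re ∈ range (s.orderEmbOfFin rfl) := by
      rw [Finset.range_orderEmbOfFin]
      exact (hB.image Complex.re).mem_toFinset.2 ⟨z, hz, rfl⟩
    obtain ⟨j, hj⟩ := h2
    exact ⟨j, h (hb j) hz ((hb' j).trans hj)⟩

theorem exists_cover {D : Set M} (hD : D.Finite) :
    ∃ (n : ℕ) (b : Fin n → ℂ) (F : M → OnePoint ℂ), StrictMono (fun j => (b j).re) ∧
      Continuous F ∧ (∀ c, (F ⁻¹' {c}).Finite) ∧
      IsCoveringMapOn F (((↑) : ℂ → OnePoint ℂ) '' (range b)ᶜ) ∧
      ∀ p ∈ D, F p ∉ ((↑) : ℂ → OnePoint ℂ) '' (range b)ᶜ := by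
  obtain ⟨F, hFc, hFf, C, hC, hFl⟩ := exists_branched (M := M)
  have hB : (((↑) : ℂ → OnePoint ℂ) ⁻¹' (F '' (C ∪ D))).Finite :=
    ((hC.union hD).image F).preimage coe_injective.injOn
  obtain ⟨u, hu, hinj⟩ := exists_rotation hB
  let h : OnePoint ℂ ≃ₜ OnePoint ℂ := (Homeomorph.mulLeft₀ u hu).onePointCongr
  have hh : ∀ z : ℂ, h z = ((u * z : ℂ) : OnePoint ℂ) := fun z => rfl
  have hh' : h ∞ = ∞ := rfl
  obtain ⟨n, b, hb, hrange⟩ := exists_enum (hB.image fun z => u * z) (by
    rintro _ ⟨z, hz, rfl⟩ _ ⟨w, hw, rfl⟩ h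
    rw [hinj hz hw h])
  have key : ∀ p ∈ C ∪ D, h (F p) ∉ ((↑) : ℂ → OnePoint ℂ) '' (range b)ᶜ := by
    rintro p hp ⟨z, hz, hz'⟩
    induction hFp : F p using OnePoint.rec with
    | infty =>
      rw [hFp, hh'] at hz'
      exact coe_ne_infty _ hz'
    | coe w =>
      rw [hFp, hh] at hz'
      refine hz ?_
      rw [hrange, coe_injective hz']
      exact ⟨w, ⟨p, hp, hFp⟩, rfl⟩
  refine ⟨n, b, h ∘ F, hb, h.continuous.comp hFc, fun c => ?_, ?_,
    fun p hp => key p (Or.inr hp)⟩
  · refine (hFf (h.symm c)).subset fun x hx => ?_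
    have h1 : h (F x) = c := hx
    change F x = h.symm c
    rw [← h1, h.symm_apply_apply]
  · refine IsCoveringMapOn.of_isLocalHomeomorphOn (h.continuous.comp hFc) ?_
    refine (h.isLocalHomeomorph.isLocalHomeomorphOn (s := univ)).comp (hFl.mono ?_)
      (mapsTo_univ _ _)
    intro x hx hxC
    exact key x (Or.inl hxC) hx

end Vale.Agent.P002Z
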