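import Vale.Agent.P002.H326J.DefsV

/-!
# Punctured compact Riemann surfaces: meridians; quasi-unipotent matrices
-/

namespace Vale.Agent.P002Z

open Matrix Vale.Agent.P002R.Orb
open scoped Manifold Real

/-- `M` is a Riemann surface, `X = M ∖ D`, `x₀ ∈ X`. The element `γ` of `π_1(X, x₀)` is a meridian
around the point `p`: there are a holomorphic coordinate `z` at `p` and a closed coordinate disc of
radius `ε` and centre `z p`, which contains no point of `D` other than `p`, such that `γ` is the
class of the loop which goes from `x₀` along a path `σ` in `X` to the boundary circle of the disc,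
once around this circle in the positive direction, and back along `σ`. -/
def IsMeridian {M : Type} [TopologicalSpace M] [ChartedSpace ℂ M] (D : Set M) (x₀ : ↥Dᶜ) (p : M)
    (γ : FundamentalGroup ↥Dᶜ x₀) : Prop :=
  ∃ (z : OpenPartialHomeomorph M ℂ) (ε : ℝ) (y : ↥Dᶜ) (σ : Path x₀ y) (c : Path y y),
    z ∈ IsManifold.maximalAtlas 𝓘(ℂ) 1 M ∧ p ∈ z.source ∧ 0 < ε ∧
    Metric.closedBall (z p) ε ⊆ z.target ∧
    (∀ u ∈ Metric.closedBall (z p) ε, z.symm u ∈ D → u = z p) ∧
    (∀ t, (c t : M) = z.symm (circleMap (z p) ε (2 * π * t))) ∧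
    γ = FundamentalGroup.fromPath (Path.Homotopic.Quotient.mk (σ.trans (c.trans σ.symm)))

/-- All eigenvalues of `A` are roots of unity. -/
def IsQuasiUnipotent {r : ℕ} (A : SpecialLinearGroup (Fin r) ℂ) : Prop :=
  ∀ z, IsEigenvalue A z → ∃ n : ℕ, 0 < n ∧ z ^ n = 1

end Vale.Agent.P002Z
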