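import Mathlib.Topology.Homotopy.Lifting
import Mathlib.Topology.Subpath
import Mathlib.Topology.FiberBundle.Basic
import Mathlib.AlgebraicTopology.FundamentalGroupoid.SimplyConnected

/-!
# Multiplicative functions of paths

A `PF X Q` is a functor from the fundamental groupoid of `X` to the group `Q`.
-/

namespace Vale.Agent.P002Z

open Set Filter Topology

/-- the unit interval -/
abbrev I := unitInterval

/-- A homotopy invariant multiplicative function of paths. -/
structure PF (X : Type) [TopologicalSpace X] (Q : Type) [Group Q] where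
  v : ∀ {x y : X}, Path x y → Q
  hom : ∀ {x y : X} {p q : Path x y}, p.Homotopic q → v p = v q
  trans : ∀ {x y z : X} (p : Path x y) (q : Path y z), v (p.trans q) = v q * v p

variable {X Y : Type} [TopologicalSpace X] [TopologicalSpace Y] {Q Q' : Type} [Group Q] [Group Q']

namespace PF

variable (φ : PF X Q)

theorem refl (x : X) : φ.v (Path.refl x) = 1 := by
  have h := φ.hom (Path.Homotopic.refl_trans (Path.refl x))
  rw [φ.trans] at h
  exact mul_eq_left.1 h

theorem symm {x y : X} (p : Path x y) : φ.v p.symm = (φ.v p)⁻¹ := by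
  have h := φ.hom (Path.Homotopic.trans_symm p)
  rw [φ.trans, φ.refl] at h
  exact eq_inv_of_mul_eq_one_left h

theorem congr {x y x' y' : X} {p : Path x y} {q : Path x' y'} (h : ∀ t, p t = q t) :
    φ.v p = φ.v q := by
  obtain rfl : x = x' := by rw [← p.source, ← q.source, h]
  obtain rfl : y = y' := by rw [← p.target, ← q.target, h]
  rw [show p = q from Path.ext (funext h)]

/-- the homomorphism on the fundamental group -/
noncomputable def toHom (x : X) : FundamentalGroup X x →* Q :=
  MonoidHom.mk' (fun a => Quotient.lift (s := Path.Homotopic.setoid x x) φ.v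
    (fun _ _ h => φ.hom h) a) (by
      intro a b
      obtain ⟨p, rfl⟩ := Path.Homotopic.Quotient.mk_surjective a
      obtain ⟨q, rfl⟩ := Path.Homotopic.Quotient.mk_surjective b
      exact φ.trans q p)

theorem toHom_mk {x : X} (p : Path x x) :
    φ.toHom x (Path.Homotopic.Quotient.mk p) = φ.v p := rfl

/-- pull-back -/
def comap (f : C(Y, X)) : PF Y Q where
  v p := φ.v (p.map f.continuous)
  hom h := φ.hom (h.map f)
  trans p q := by rw [Path.map_trans, φ.trans]

/-- push-forward -/
def post (θ : Q →* Q') : PF X Q' where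
  v p := θ (φ.v p)
  hom h := by rw [φ.hom h]
  trans p q := by rw [φ.trans, map_mul]

/-- `τ` is a potential of `φ` on `V`. -/
def Pot (V : Set X) (τ : X → Q) : Prop :=
  ∀ x y (p : Path x y), (∀ t, p t ∈ V) → φ.v p = (τ y)⁻¹ * τ x

theorem exists_pot {V : Set X} (h : ∀ x (p : Path x x), (∀ t, p t ∈ V) → φ.v p = 1) :
    ∃ τ, φ.Pot V τ := by
  classical
  let c : X → X := fun x => @Classical.epsilon X ⟨x⟩ (fun z => JoinedIn V x z)
  have hc : ∀ x ∈ V, JoinedIn V x (c x) := fun x hx =>
    Classical.epsilon_spec (p := fun z => JoinedIn V x z) ⟨x, JoinedIn.refl hx⟩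
  have hcc : ∀ x y, JoinedIn V x y → c x = c y := by
    intro x y hxy
    have : (fun z => JoinedIn V x z) = fun z => JoinedIn V y z :=
      funext fun z => propext ⟨fun h => hxy.symm.trans h, fun h => hxy.trans h⟩
    simp only [c, this]
  refine ⟨fun x => if hx : x ∈ V then φ.v (hc x hx).somePath else 1, fun x y p hp => ?_⟩
  have hx : x ∈ V := p.source ▸ hp 0
  have hy : y ∈ V := p.target ▸ hp 1
  have hxy : c x = c y := hcc x y ⟨p, hp⟩
  simp only [hx, hy, dif_pos]
  have h1 := h x ((p.trans (hc y hy).somePath).trans ((hc x hx).somePath.cast rfl hxy.symm).symm)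
    (by
      intro t
      have : range ((p.trans (hc y hy).somePath).trans
          ((hc x hx).somePath.cast rfl hxy.symm).symm) ⊆ V := by
        rw [Path.trans_range, Path.trans_range, Path.symm_range]
        refine union_subset (union_subset ?_ ?_) ?_
        · rintro _ ⟨t, rfl⟩; exact hp t
        · rintro _ ⟨t, rfl⟩; exact (hc y hy).somePath_mem t
        · rintro _ ⟨t, rfl⟩; exact (hc x hx).somePath_mem t
      exact this ⟨t, rfl⟩)
  rw [φ.trans, φ.trans, φ.symm,
    φ.congr (p := (hc x hx).somePath.cast rfl hxy.symm) (q := (hc x hx).somePath) fun _ => rfl]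
    at h1
  rw [eq_inv_mul_iff_mul_eq, eq_comm, ← inv_mul_eq_one, h1]

end PF

/-- All loops in `V` are homotopic to constant loops in `X`. -/
def Null (V : Set X) : Prop :=
  ∀ x (p : Path x x), (∀ t, p t ∈ V) → p.Homotopic (Path.refl x)

theorem Null.exists_pot {V : Set X} (h : Null V) (φ : PF X Q) : ∃ τ, φ.Pot V τ :=
  φ.exists_pot fun x p hp => by rw [φ.hom (h x p hp), φ.refl]

theorem null_of_isSimplyConnected {V : Set X} (h : IsSimplyConnected V) : Null V := by
  intro x p hp
  obtain ⟨F, -⟩ := (isSimplyConnected_iff_exists_homotopy_refl_forall_mem.1 h).2 x p hp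
  exact ⟨F⟩

theorem null_range {A : Type} [TopologicalSpace A] [SimplyConnectedSpace A] {j : A → X}
    (hj : IsEmbedding j) : Null (range j) := by
  refine null_of_isSimplyConnected ?_
  rw [← image_univ, hj.isSimplyConnected_image]
  exact (Homeomorph.Set.univ A).toHomotopyEquiv.simplyConnectedSpace

/-- Induction on paths. -/
theorem path_induction {ι : Type*} (U : ι → Set X) (hU : ∀ i, IsOpen (U i)) (S : Set X)
    (hS : S ⊆ ⋃ i, U i) (P : ∀ x y : X, Path x y → Prop)
    (hhom : ∀ x y (p q : Path x y), p.Homotopic q → P x y p → P x y q)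
    (htr : ∀ x y z (p : Path x y) (q : Path y z), P x y p → P y z q → P x z (p.trans q))
    (hsm : ∀ i x y (p : Path x y), (∀ t, p t ∈ S ∧ p t ∈ U i) → P x y p)
    {x y : X} (p : Path x y) (hp : ∀ t, p t ∈ S) : P x y p := by
  obtain ⟨t, h0, hm, ⟨n, hn⟩, hsub⟩ := exists_monotone_Icc_subset_open_cover_unitInterval
    (c := fun i => p ⁻¹' U i) (fun i => (hU i).preimage p.continuous) (by
      intro s _
      obtain ⟨i, hi⟩ := mem_iUnion.1 (hS (hp s))
      exact mem_iUnion.2 ⟨i, hi⟩)
  have hpiece : ∀ k, P _ _ (p.subpath (t k) (t (k + 1))) := by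
    intro k
    obtain ⟨i, hi⟩ := hsub k
    refine hsm i _ _ _ fun s => ?_
    have : (p.subpath (t k) (t (k + 1))) s ∈ p '' Icc (t k) (t (k + 1)) := by
      rw [← Path.range_subpath_of_le _ _ _ (hm (Nat.le_succ k))]
      exact ⟨s, rfl⟩
    obtain ⟨u, hu, hu'⟩ := this
    rw [← hu']
    exact ⟨hp u, hi hu⟩
  have key : ∀ k, P _ _ (p.subpath (t 0) (t (k + 1))) := by
    intro k
    induction k with
    | zero => exact hpiece 0
    | succ k ih =>
      exact hhom _ _ _ _ ⟨Path.Homotopy.subpathTransSubpath p _ _ _⟩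
        (htr _ _ _ _ _ ih (hpiece (k + 1)))
  have h1 := key n
  have e : ∀ (a b : I), a = 0 → b = 1 → P _ _ (p.subpath a b) → P x y p := by
    rintro a b rfl rfl h
    have hx := p.source
    have hy := p.target
    have gen : ∀ x' y' (q : Path x' y'), x' = x → y' = y → (∀ s, q s = p s) → P x' y' q →
        P x y p := by
      rintro x' y' q rfl rfl hq h
      rwa [show q = p from Path.ext (funext hq)] at h
    exact gen _ _ _ hx hy (fun s => by simp) h
  exact e _ _ h0 (hn _ (Nat.le_succ n)) h1

/-- The holonomy of a cocycle of locally constant functions. -/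
theorem exists_holonomy {ι : Type} (U : ι → Set X) (hU : ∀ i, IsOpen (U i))
    (hcov : ∀ x, ∃ i, x ∈ U i) (g : ι → ι → X → Q)
    (hlc : ∀ i j, ∀ x ∈ U i ∩ U j, ∀ᶠ y in 𝓝 x, g i j y = g i j x)
    (hco : ∀ i j k, ∀ x ∈ U i ∩ U j ∩ U k, g j k x * g i j x = g i k x) :
    ∃ (φ : PF X Q) (t : ι → X → Q), (∀ i, φ.Pot (U i) (t i)) ∧
      ∀ i j, ∀ x ∈ U i ∩ U j, t j x = g i j x * t i x := by
  let _ : TopologicalSpace Q := ⊥
  have _ : DiscreteTopology Q := ⟨rfl⟩
  choose idx hidx using hcov
  have hself : ∀ i, ∀ x ∈ U i, g i i x = 1 := fun i x hx =>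
    mul_eq_left.1 (hco i i i x ⟨⟨hx, hx⟩, hx⟩)
  let Z : FiberBundleCore ι X Q :=
    { baseSet := U
      isOpen_baseSet := hU
      indexAt := idx
      mem_baseSet_at := hidx
      coordChange := fun i j x v => g i j x * v
      coordChange_self := fun i x hx v => by rw [hself i x hx, one_mul]
      continuousOn_coordChange := by
        rintro i j ⟨x, v⟩ ⟨hx, -⟩
        refine ContinuousAt.continuousWithinAt ?_
        have h1 : ∀ᶠ p : X × Q in 𝓝 (x, v), g i j p.1 * p.2 = g i j x * v := by
          have h2 : ∀ᶠ p : X × Q in 𝓝 (x, v), g i j p.1 = g i j x :=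
            (continuous_fst.continuousAt (x := (x, v))).eventually
              (p := fun y => g i j y = g i j x) (hlc i j x hx)
          have h3 : ∀ᶠ p : X × Q in 𝓝 (x, v), p.2 = v :=
            continuous_snd.continuousAt.eventually (p := fun q => q = v)
              (by rw [nhds_discrete]; exact rfl)
          filter_upwards [h2, h3] with p h2 h3
          rw [h2, h3]
        exact (continuousAt_const (y := g i j x * v)).congr (EventuallyEq.symm h1)
      coordChange_comp := fun i j k x hx v => by rw [← mul_assoc, hco i j k x hx] }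
  have cov : IsCoveringMap Z.proj := FiberBundle.isCoveringMap (F := Q) (E := Z.Fiber)
  -- lifts of paths
  let L : ∀ {x y : X}, Path x y → Q → C(I, Z.TotalSpace) := fun {x y} p q =>
    cov.liftPath p (⟨x, q⟩ : Z.TotalSpace) p.source
  have hL0 : ∀ {x y : X} (p : Path x y) q, L p q 0 = ⟨x, q⟩ := fun p q => cov.liftPath_zero ..
  have hL1 : ∀ {x y : X} (p : Path x y) q s, (L p q s).1 = p s := fun p q s =>
    congr_fun (cov.liftPath_lifts p (⟨_, q⟩ : Z.TotalSpace) p.source) s
  -- right multiplication
  let Rm : Q → Z.TotalSpace → Z.TotalSpace := fun a e => ⟨e.1, (show Q from e.2) * a⟩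
  have hRm : ∀ a, Continuous (Rm a) := by
    intro a
    rw [continuous_iff_continuousAt]
    intro e
    rw [FiberBundle.continuousAt_totalSpace]
    refine ⟨(FiberBundle.continuous_proj Q Z.Fiber).continuousAt, ?_⟩
    have h1 := (FiberBundle.continuousAt_totalSpace Q (id : Z.TotalSpace → Z.TotalSpace)
      (x₀ := e)).1 continuousAt_id
    have h2 : ContinuousAt (fun e' : Z.TotalSpace => g (idx e'.1) (idx e.1) e'.1 *
      (show Q from e'.2)) e := h1.2
    have h3 := (continuous_of_discreteTopology (f := fun q : Q => q * a)).continuousAt.comp h2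
    refine h3.congr (Eventually.of_forall fun e' => ?_)
    exact mul_assoc _ _ _
  have hLR : ∀ {x y : X} (p : Path x y) q s,
      L p q s = Rm q (L p 1 s) := by
    intro x y p q s
    have : (fun s => Rm q (L p 1 s)) = L p q := by
      refine (cov.eq_liftPath_iff _).2 ⟨(hRm q).comp (L p 1).continuous, ?_, ?_⟩
      · funext s
        exact hL1 p 1 s
      · change Rm q (L p 1 0) = _
        rw [hL0]
        change (⟨x, (1 : Q) * q⟩ : Z.TotalSpace) = _
        rw [one_mul]
    exact (congr_fun this s).symm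
  have hend : ∀ {x y : X} (p : Path x y),
      L p 1 1 = (⟨y, (show Q from (L p 1 1).2)⟩ : Z.TotalSpace) := by
    intro x y p
    have h := hL1 p 1 1
    rw [p.target] at h
    obtain ⟨e, he⟩ : ∃ e, e = L p 1 1 := ⟨_, rfl⟩
    rw [← he] at h ⊢
    obtain ⟨b, v⟩ := e
    cases h
    rfl
  refine ⟨⟨fun p => (show Q from (L p 1 1).2), fun {x y p q} h => ?_, fun {x y z} p q => ?_⟩,
    fun i x => g (idx x) i x, fun i x y p hp => ?_, fun i j x hx => ?_⟩
  · have := cov.liftPath_apply_one_eq_of_homotopicRel h (⟨x, (1 : Q)⟩ : Z.TotalSpace)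
      p.source q.source
    change L p 1 1 = L q 1 1 at this
    exact congrArg (fun e : Z.TotalSpace => (show Q from e.2)) this
  · have h1 : L (p.trans q) 1 1 = L q (show Q from (L p 1 1).2) 1 := by
      have h2 := cov.liftPath_trans (e := (⟨x, (1 : Q)⟩ : Z.TotalSpace)) rfl p q
      have h3 := (DFunLike.congr_fun h2 1).trans (Path.target _)
      refine h3.trans ?_
      have gen : ∀ (e e' : Z.TotalSpace) (he : q 0 = Z.proj e) (he' : q 0 = Z.proj e'), e = e' →
          cov.liftPath q e he 1 = cov.liftPath q e' he' 1 := by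
        rintro e e' he he' rfl
        rfl
      exact gen _ _ _ _ (hend p)
    rw [hLR q] at h1
    exact congrArg (fun e : Z.TotalSpace => (show Q from e.2)) h1
  · have hx : x ∈ U i := p.source ▸ hp 0
    have hy : y ∈ U i := p.target ▸ hp 1
    let c : Q := g (idx x) i x
    have hc : Continuous fun s : I => (Z.localTriv i).toOpenPartialHomeomorph.symm (p s, c) := by
      refine (Z.localTriv i).toOpenPartialHomeomorph.continuousOn_symm.comp_continuous
        (p.continuous.prodMk continuous_const) fun s => ?_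
      exact (Z.mem_localTriv_target i _).2 (hp s)
    have : (fun s : I => (Z.localTriv i).toOpenPartialHomeomorph.symm (p s, c)) = L p 1 := by
      refine (cov.eq_liftPath_iff _).2 ⟨hc, ?_, ?_⟩
      · funext s
        rfl
      · change (⟨p 0, g i (idx (p 0)) (p 0) * c⟩ : Z.TotalSpace) = ⟨x, (1 : Q)⟩
        rw [p.source, hco (idx x) i (idx x) x ⟨⟨hidx x, hx⟩, hidx x⟩, hself _ _ (hidx x)]
    have h1 : (show Q from (L p 1 1).2) = g i (idx (p 1)) (p 1) * c :=
      (congrArg (fun e : Z.TotalSpace => (show Q from e.2)) (congr_fun this 1)).symm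
    change (show Q from (L p 1 1).2) = _
    rw [h1, p.target]
    congr 1
    refine eq_inv_of_mul_eq_one_left ?_
    rw [hco (idx y) i (idx y) y ⟨⟨hidx y, hy⟩, hidx y⟩, hself _ _ (hidx y)]
  · exact (hco (idx x) i j x ⟨⟨hidx x, hx.1⟩, hx.2⟩).symm

/-- the class of the loop `σ * c * σ⁻¹` -/
noncomputable def conjLoop {x y : X} (σ : Path x y) (c : Path y y) : FundamentalGroup X x :=
  Path.Homotopic.Quotient.mk (σ.trans (c.trans σ.symm))

theorem PF.toHom_conjLoop (φ : PF X Q) {x y : X} (σ : Path x y) (c : Path y y) :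
    φ.toHom x (conjLoop σ c) = (φ.v σ)⁻¹ * φ.v c * φ.v σ := by
  rw [conjLoop, φ.toHom_mk, φ.trans, φ.trans, φ.symm]

/-- The universal multiplicative function. -/
theorem exists_univ [PathConnectedSpace X] (x0 : X) :
    ∃ κ : PF X (FundamentalGroup X x0), (∀ a, κ.toHom x0 a = a) ∧
      ∀ (Q : Type) [Group Q] (φ : PF X Q), ∃ s : X → Q, ∀ x y (p : Path x y),
        φ.toHom x0 (κ.v p) = (s y)⁻¹ * φ.v p * s x := by
  classical
  have h : ∀ x, ∃ σ : Path x0 x, ∀ h : x0 = x, ∀ t, σ t = x0 := by
    intro x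
    by_cases hx : x0 = x
    · subst hx
      exact ⟨Path.refl x0, fun _ _ => rfl⟩
    · exact ⟨PathConnectedSpace.somePath x0 x, fun h => absurd h hx⟩
  choose σ hσ using h
  have hσ0 : σ x0 = Path.refl x0 := Path.ext (funext (hσ x0 rfl))
  refine ⟨⟨fun {x y} p => Path.Homotopic.Quotient.mk ((σ x).trans (p.trans (σ y).symm)),
    fun {x y p q} h => ?_, fun {x y z} p q => ?_⟩, fun a => ?_, fun Q _ φ =>
      ⟨fun x => φ.v (σ x), fun x y p => ?_⟩⟩
  · exact Path.Homotopic.Quotient.eq.2
      ((Path.Homotopic.refl _).hcomp (h.hcomp (Path.Homotopic.refl _)))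
  · rw [FundamentalGroup.mul_def]
    simp only [Path.Homotopic.Quotient.mk_trans, Path.Homotopic.Quotient.mk_symm,
      Path.Homotopic.Quotient.trans_assoc]
    rw [← Path.Homotopic.Quotient.trans_assoc (Path.Homotopic.Quotient.mk (σ y)).symm,
      Path.Homotopic.Quotient.symm_trans, Path.Homotopic.Quotient.refl_trans]
  · obtain ⟨p, rfl⟩ := Path.Homotopic.Quotient.mk_surjective a
    rw [PF.toHom_mk]
    change Path.Homotopic.Quotient.mk ((σ x0).trans (p.trans (σ x0).symm)) = _
    rw [hσ0, Path.refl_symm]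
    exact Path.Homotopic.Quotient.eq.2
      ((Path.Homotopic.refl_trans _).trans (Path.Homotopic.trans_refl _))
  · change φ.v ((σ x).trans (p.trans (σ y).symm)) = _
    rw [φ.trans, φ.trans, φ.symm]

end Vale.Agent.P002Z
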