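import Mathlib
import Vale.Agent.P002Z.PF

/-!
# Filling in punctures
-/

namespace Vale.Agent.P002Z

open Set Filter Topology

/-- `U` is `X` minus a discrete set of points, `X` a surface with parametrised discs `j x`. -/
structure FillData (U X : Type) [TopologicalSpace U] [TopologicalSpace X] where
  ι : C(U, X)
  hι : IsOpenEmbedding ι
  j : X → ℂ → X
  hj : ∀ x, IsOpenEmbedding (j x)
  hj0 : ∀ x, j x 0 = x
  hjU : ∀ x z, z ≠ 0 → j x z ∈ range ι

namespace FillData

variable {U X : Type} [TopologicalSpace U] [TopologicalSpace X] (D : FillData U X)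

theorem mem_self (x : X) : x ∈ range (D.j x) := ⟨0, D.hj0 x⟩

theorem eq_of_not_mem {x y : X} (hy : y ∉ range D.ι) (h : y ∈ range (D.j x)) : x = y := by
  obtain ⟨z, rfl⟩ := h
  by_cases hz : z = 0
  · rw [hz, D.hj0]
  · exact absurd (D.hjU x z hz) hy

theorem null (x : X) : Null (range (D.j x)) := null_range (D.hj x).isEmbedding

theorem isPathConnected (x : X) : IsPathConnected (D.ι ⁻¹' range (D.j x)) := by
  rw [D.hι.isInducing.isPathConnected_iff, image_preimage_eq_inter_range]
  have h : range (D.j x) ∩ range D.ι = D.j x '' {z | D.j x z ∈ range D.ι} := by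
    ext y
    constructor
    · rintro ⟨⟨z, rfl⟩, h⟩
      exact ⟨z, h, rfl⟩
    · rintro ⟨z, h, rfl⟩
      exact ⟨⟨z, rfl⟩, h⟩
  rw [h]
  refine IsPathConnected.image ?_ (D.hj x).continuous
  by_cases h0 : D.j x 0 ∈ range D.ι
  · have : {z | D.j x z ∈ range D.ι} = univ := by
      refine eq_univ_of_forall fun z => ?_
      by_cases hz : z = 0
      · rw [hz]; exact h0
      · exact D.hjU x z hz
    rw [this]
    exact isPathConnected_univ
  · have : {z | D.j x z ∈ range D.ι} = {0}ᶜ := by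
      ext z
      constructor
      · rintro h rfl
        exact h0 h
      · exact fun h => D.hjU x z h
    rw [this]
    exact isPathConnected_compl_singleton_of_one_lt_rank
      (by rw [Complex.rank_real_complex]; norm_num) 0

theorem null' {x : X} (hx : x ∈ range D.ι) : Null (D.ι ⁻¹' range (D.j x)) := by
  refine null_of_isSimplyConnected ?_
  rw [← D.hι.isEmbedding.isSimplyConnected_image, image_preimage_eq_of_subset]
  · rw [← image_univ, (D.hj x).isEmbedding.isSimplyConnected_image]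
    exact (Homeomorph.Set.univ ℂ).toHomotopyEquiv.simplyConnectedSpace
  · rintro _ ⟨z, rfl⟩
    by_cases hz : z = 0
    · rw [hz, D.hj0]; exact hx
    · exact D.hjU x z hz

theorem surj {G : Type} [Group G] (κ : PF X G) (u0 y : U) (a : Path (D.ι u0) (D.ι y)) :
    ∃ b : Path u0 y, κ.v (b.map D.ι.continuous) = κ.v a := by
  let Good : X → G → Prop := fun y g => ∃ (x : X) (y' : U) (b : Path u0 y')
    (r : Path (D.ι y') y), (∀ t, r t ∈ range (D.j x)) ∧ g = κ.v r * κ.v (b.map D.ι.continuous)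
  have key : ∀ (y : U) (g : G), Good (D.ι y) g →
      ∃ b : Path u0 y, κ.v (b.map D.ι.continuous) = g := by
    rintro y g ⟨x, y', b, r, hr, rfl⟩
    obtain ⟨τ, hτ⟩ := (D.null x).exists_pot κ
    have h0 : D.ι y' ∈ range (D.j x) := r.source ▸ hr 0
    have h1 : D.ι y ∈ range (D.j x) := r.target ▸ hr 1
    obtain ⟨r', hr'⟩ := (D.isPathConnected x).joinedIn y' h0 y h1
    refine ⟨b.trans r', ?_⟩
    rw [Path.map_trans, κ.trans, hτ _ _ r hr, hτ _ _ (r'.map D.ι.continuous) hr']
  have h := path_induction (fun x => range (D.j x)) (fun x => (D.hj x).isOpen_range) univ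
    (fun x _ => mem_iUnion.2 ⟨x, D.mem_self x⟩)
    (fun x y p => ∀ g, Good x g → Good y (κ.v p * g))
    (fun x y p q h hp g hg => by rw [← κ.hom h]; exact hp g hg)
    (fun x y z p q hp hq g hg => by rw [κ.trans, mul_assoc]; exact hq _ (hp g hg))
    (fun z x y p hp g hg => by
      by_cases hx : x ∈ range D.ι
      · obtain ⟨x', rfl⟩ := hx
        obtain ⟨b, rfl⟩ := key x' g hg
        exact ⟨z, x', b, p, fun t => (hp t).2, rfl⟩
      · obtain ⟨w, y', b, r, hr, rfl⟩ := hg
        have h1 : w = x := D.eq_of_not_mem hx (r.target ▸ hr 1)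
        have h2 : z = x := D.eq_of_not_mem hx (p.source ▸ (hp 0).2)
        refine ⟨x, y', b, r.trans p, fun t => ?_, by rw [κ.trans, mul_assoc]⟩
        have : range (r.trans p) ⊆ range (D.j x) := by
          rw [Path.trans_range]
          refine union_subset ?_ ?_
          · rintro _ ⟨t, rfl⟩; exact h1 ▸ hr t
          · rintro _ ⟨t, rfl⟩; exact h2 ▸ (hp t).2
        exact this ⟨t, rfl⟩) a (fun _ => mem_univ _) 1
    ⟨D.ι u0, u0, Path.refl u0, Path.refl _, fun _ => D.mem_self _, by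
      rw [κ.refl, one_mul, κ.congr (p := (Path.refl u0).map D.ι.continuous)
        (q := Path.refl (D.ι u0)) fun _ => rfl, κ.refl]⟩
  rw [mul_one] at h
  exact key y _ h

include D in
theorem pathConnectedSpace [PathConnectedSpace X] : PathConnectedSpace U := by
  obtain ⟨x⟩ : Nonempty X := inferInstance
  obtain ⟨u, -⟩ := D.hjU x 1 one_ne_zero
  refine ⟨⟨u⟩, fun u0 y => ?_⟩
  obtain ⟨b, -⟩ := D.surj (G := Unit) ⟨fun _ => 1, fun _ => rfl, fun _ _ => rfl⟩ u0 y
    (PathConnectedSpace.somePath _ _)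
  exact ⟨b⟩

theorem ext [LocallyPathConnectedSpace U] {Q : Type} [Group Q] (φ : PF U Q)
    (hφ : ∀ x ∉ range D.ι, ∀ y (c : Path y y), (∀ t, D.ι (c t) ∈ range (D.j x)) → φ.v c = 1) :
    ∃ (Φ : PF X Q) (h : U → Q), ∀ y y' (p : Path y y'),
      Φ.v (p.map D.ι.continuous) = (h y')⁻¹ * φ.v p * h y := by
  classical
  have hpot : ∀ x, ∃ τ, φ.Pot (D.ι ⁻¹' range (D.j x)) τ := by
    intro x
    by_cases hx : x ∈ range D.ι
    · exact (D.null' hx).exists_pot φ
    · exact φ.exists_pot (hφ x hx)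
  choose τ hτ using hpot
  let ρ : X → X → Q := fun x y => if h : y ∈ range D.ι then τ x h.choose else 1
  have hρ : ∀ x u, ρ x (D.ι u) = τ x u := by
    intro x u
    have h : D.ι u ∈ range D.ι := ⟨u, rfl⟩
    simp only [ρ, dif_pos h]
    rw [D.hι.injective h.choose_spec]
  obtain ⟨Φ, t, ht, ht'⟩ := exists_holonomy (fun x => range (D.j x))
    (fun x => (D.hj x).isOpen_range) (fun x => ⟨x, D.mem_self x⟩)
    (fun x x' y => ρ x' y * (ρ x y)⁻¹) (by
      rintro x x' y ⟨h1, h2⟩
      by_cases hy : y ∈ range D.ι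
      · obtain ⟨u, rfl⟩ := hy
        rw [← D.hι.map_nhds_eq, eventually_map]
        have hO : D.ι ⁻¹' range (D.j x) ∩ D.ι ⁻¹' range (D.j x') ∈ 𝓝 u :=
          (((D.hj x).isOpen_range.preimage D.ι.continuous).inter
            ((D.hj x').isOpen_range.preimage D.ι.continuous)).mem_nhds ⟨h1, h2⟩
        filter_upwards [pathComponentIn_mem_nhds hO] with u' hu'
        obtain ⟨p, hp⟩ := hu'
        have e1 := hτ x _ _ p fun t => (hp t).1
        have e2 := hτ x' _ _ p fun t => (hp t).2
        rw [hρ, hρ, hρ, hρ]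
        rw [e1] at e2
        calc τ x' u' * (τ x u')⁻¹ = τ x' u' * ((τ x u')⁻¹ * τ x u) * (τ x u)⁻¹ := by group
          _ = _ := by rw [e2]; group
      · rw [D.eq_of_not_mem hy h1, D.eq_of_not_mem hy h2]
        simp) (fun _ _ _ _ _ => by group)
  let h : U → Q := fun u => (τ (D.ι u) u)⁻¹ * t (D.ι u) (D.ι u)
  have hh : ∀ x u, D.ι u ∈ range (D.j x) → t x (D.ι u) = τ x u * h u := by
    intro x u hu
    have := ht' (D.ι u) x (D.ι u) ⟨D.mem_self _, hu⟩
    rw [hρ, hρ] at this
    rw [this, mul_assoc]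
  refine ⟨Φ, h, fun y y' p => ?_⟩
  refine path_induction (fun x => D.ι ⁻¹' range (D.j x))
    (fun x => (D.hj x).isOpen_range.preimage D.ι.continuous) univ
    (fun u _ => mem_iUnion.2 ⟨D.ι u, D.mem_self _⟩)
    (fun y y' p => Φ.v (p.map D.ι.continuous) = (h y')⁻¹ * φ.v p * h y) ?_ ?_ ?_ p
    fun _ => mem_univ _
  · intro y y' p q hpq hp
    rw [← φ.hom hpq, ← Φ.hom (hpq.map D.ι), hp]
  · intro y y' y'' p q hp hq
    rw [Path.map_trans, Φ.trans, φ.trans, hp, hq]
    group
  · intro x y y' p hp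
    have h0 : D.ι y ∈ range (D.j x) := p.source ▸ (hp 0).2
    have h1 : D.ι y' ∈ range (D.j x) := p.target ▸ (hp 1).2
    rw [ht x _ _ (p.map D.ι.continuous) fun t => (hp t).2, hτ x _ _ p fun t => (hp t).2,
      hh x y h0, hh x y' h1]
    group

end FillData

end Vale.Agent.P002Z
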