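import Vale.Agent.P002Z.Merid
import Vale.Agent.P002.H2.TL
import Vale.Agent.P002.Bd3.B14

/-!
# Density of integral points for punctured compact Riemann surfaces
-/

namespace Vale.Agent.P002Z

open Set Matrix Vale.Agent.P002R.Orb Vale.Agent.P002.H326J Vale.Agent.P002.H2
  Vale.Agent.P002.H252
open scoped Manifold commutatorElement

/-- the family with one member attached to an isomorphism with an orbicurve group -/
def oneFamily {Γ : Type} [Group Γ] {g n : ℕ} {m : Fin n → ℕ} (θ : Γ ≃* OrbGroup g n m) :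
    OrbFamily Γ :=
  letI : MulAction Γ Unit :=
    { smul := fun _ i => i, one_smul := fun _ => rfl, mul_smul := fun _ _ _ => rfl }
  { I := Unit
    fin := inferInstance
    act := this
    g := fun _ => g
    n := fun _ => n
    m := fun _ => m
    φ := fun i => θ.toMonoidHom.comp (MulAction.stabilizer Γ i).subtype
    range := fun i => by
      have h : (θ.toMonoidHom.comp (MulAction.stabilizer Γ i).subtype).range = ⊤ := by
        rw [MonoidHom.range_eq_top]
        intro y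
        exact ⟨⟨θ.symm y, rfl⟩, θ.apply_symm_apply y⟩
      rw [h]
      infer_instance
    conj := fun x i => by
      have h : ∀ j : Unit, (θ.toMonoidHom.comp (MulAction.stabilizer Γ j).subtype).ker = ⊥ :=
        fun j => (MonoidHom.ker_eq_bot_iff _).2 (θ.injective.comp Subtype.val_injective)
      simp only [h, Subgroup.map_bot]
    dist := fun i x h => absurd rfl h }

theorem oneFamily_K {Γ : Type} [Group Γ] {g n : ℕ} {m : Fin n → ℕ} (θ : Γ ≃* OrbGroup g n m) :
    (oneFamily θ).K = ⊥ := by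
  refine le_bot_iff.1 ((iInf_le _ ()).trans ?_)
  have h : ((oneFamily θ).φ ()).ker = ⊥ :=
    (MonoidHom.ker_eq_bot_iff _).2 (θ.injective.comp Subtype.val_injective)
  rw [h, Subgroup.map_bot]

theorem dense_of_isOrb {G : Type} [Group G] {g n : ℕ} {m : Fin n → ℕ} {δ : G0 g n → G}
    (hδ : IsOrb g n m G δ) {ι : Type} [Finite ι] (R : Set (FreeGroup ι))
    (θ : PresentedGroup R ≃* G) (r s : ℕ) (w : Fin s → FreeGroup ι)
    (C : Fin s → SpecialLinearGroup (Fin r) ℂ)
    (hw : ∀ j, ∃ (i : Fin n) (h : G) (a : ℤ),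
      θ (PresentedGroup.mk R (w j)) = h * δ (Sum.inr i) ^ a * h⁻¹)
    (hC : ∀ j, IsQuasiUnipotent (C j)) :
    ∃ L : IntermediateField ℚ ℂ, FiniteDimensional ℚ L ∧ IsDenseRep L (YW R w C) := by
  obtain ⟨θo, hθo⟩ := hδ.equiv (stdGen_isOrb g n m)
  let O := oneFamily (θ.trans θo)
  have hper : ∀ j, O.IsPeripheral (PresentedGroup.mk R (w j)) := by
    rintro j i z ⟨x, a, hz⟩
    obtain ⟨l, h, b, hb⟩ := hw j
    have h1 : θo (δ (Sum.inr l)) = OrbGroup.loop l := hθo (Sum.inr l)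
    have h2 : θ (z : PresentedGroup R) = θ x * h * δ (Sum.inr l) ^ (b * a) * (θ x * h)⁻¹ := by
      rw [hz, map_mul, map_mul, map_inv, map_zpow, hb, conj_zpow, ← _root_.zpow_mul]
      group
    have h3 : IsConj ((OrbGroup.loop l : OrbGroup g n m) ^ (b * a))
        (θo (θ (z : PresentedGroup R))) := by
      refine isConj_iff.2 ⟨θo (θ x * h), ?_⟩
      rw [h2, map_mul θo _ _⁻¹, map_mul θo (θ x * h), map_inv, map_zpow, h1]
    exact Or.inr ⟨l, b * a, h3⟩
  obtain ⟨L, hL, h⟩ := main_T3 O r w C hC hper ⊥ inferInstance bot_le (fun _ => (r : ℂ))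
    fun _ => isIntegral_natCast r
  rw [yrel_bot, yker_eq] at h
  · exact ⟨L, hL, h⟩
  · have : Subsingleton O.K := by
      rw [oneFamily_K]
      infer_instance
    exact ⟨⊤, inferInstance, inferInstance⟩

theorem isFinitelyPresented_of_isOrb {G : Type} [Group G] {g n : ℕ} {m : Fin n → ℕ}
    {δ : G0 g n → G} (hδ : IsOrb g n m G δ) : Group.IsFinitelyPresented G := by
  obtain ⟨θo, -⟩ := (stdGen_isOrb g n m).equiv hδ
  have hfin : (Rels (k := 1) (fun _ => g) (fun _ => n) (fun _ => m)).Finite := by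
    let e : Gens (k := 1) (fun _ => g) (fun _ => n) →
      FreeGroup (Gens (k := 1) (fun _ => g) (fun _ => n)) := FreeGroup.of
    refine (((finite_range fun i : Fin 1 =>
      (List.ofFn fun l => ⁅e (Sum.inl ⟨i, l, false⟩), e (Sum.inl ⟨i, l, true⟩)⁆).prod *
        (List.ofFn fun j => e (Sum.inr ⟨i, j⟩)).prod).union
      (finite_range fun q : Gens (k := 1) (fun _ => g) (fun _ => n) ×
        Gens (k := 1) (fun _ => g) (fun _ => n) => ⁅e q.1, e q.2⁆)).union
      (finite_range fun q : Fin 1 × Fin n => e (Sum.inr ⟨q.1, q.2⟩) ^ m q.2)).subset ?_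
    rintro x (⟨i, rfl⟩ | ⟨p, q, -, rfl⟩ | ⟨i, j, rfl⟩)
    · exact Or.inl (Or.inl ⟨i, rfl⟩)
    · exact Or.inl (Or.inr ⟨(p, q), rfl⟩)
    · exact Or.inr ⟨(i, j), rfl⟩
  have : Finite (Rels (k := 1) (fun _ => g) (fun _ => n) (fun _ => m)) := hfin
  exact Group.IsFinitelyPresented.equiv θo

variable {M : Type} [TopologicalSpace M] [T2Space M] [CompactSpace M] [ConnectedSpace M]
  [ChartedSpace ℂ M] [IsManifold 𝓘(ℂ) 1 M]

theorem curves {D : Set M} (hD : D.Finite) (x₀ : ↥Dᶜ) :
    Group.IsFinitelyPresented (FundamentalGroup ↥Dᶜ x₀) ∧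
    (∀ p, ∃ γ, IsMeridian D x₀ p γ) ∧
    ∀ (ι : Type) [Finite ι] (R : Set (FreeGroup ι))
      (θ : PresentedGroup R ≃* FundamentalGroup ↥Dᶜ x₀)
      (r s : ℕ) (w : Fin s → FreeGroup ι) (C : Fin s → SpecialLinearGroup (Fin r) ℂ),
      (∀ j, ∃ p ∈ D, IsMeridian D x₀ p (θ (PresentedGroup.mk R (w j)))) →
      (∀ j, IsQuasiUnipotent (C j)) →
      ∃ L : IntermediateField ℚ ℂ, FiniteDimensional ℚ L ∧ IsDenseRep L (YW R w C) := by
  have : PathConnectedSpace ↥Dᶜ :=
    isPathConnected_iff_pathConnectedSpace.1 (isPathConnected_compl_finite hD)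
  obtain ⟨g, n, m, δ, hδ, hper⟩ := curve_isOrb hD x₀
  refine ⟨isFinitelyPresented_of_isOrb hδ, exists_meridian hD x₀,
    fun ι _ R θ r s w C hw hC => dense_of_isOrb hδ R θ r s w C (fun j => ?_) hC⟩
  obtain ⟨p, hp, h⟩ := hw j
  exact hper p hp _ h.localAt

end Vale.Agent.P002Z
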