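import Vale.Agent.P002Z.PlaneA
import Vale.Agent.P002.H252.PB

/-!
# The fundamental group of the plane minus finitely many points
-/

namespace Vale.Agent.P002Z

open Set Filter Topology Vale.Agent.P002.H252

/-- All loops in `N` are conjugate to powers of `d`. -/
def Peri {W : Type} [TopologicalSpace W] (w0 : W) (N : Set W) (d : FundamentalGroup W w0) :
    Prop :=
  ∀ x (σ : Path w0 x) (c : Path x x), (∀ t, c t ∈ N) →
    ∃ (h : FundamentalGroup W w0) (a : ℤ), conjLoop σ c = h * d ^ a * h⁻¹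

theorem prod_tele {F : Type} [Group F] (ε : ℕ → F) (k : ℕ) :
    (List.ofFn fun j : Fin k => (ε j)⁻¹ * ε (j + 1)).prod = (ε 0)⁻¹ * ε k := by
  induction k with
  | zero => simp
  | succ k ih =>
    rw [List.ofFn_succ', List.concat_eq_append, List.prod_append]
    simp only [Fin.val_castSucc, Fin.val_last, List.prod_cons, List.prod_nil, mul_one]
    rw [ih]
    group

theorem evalB_zero {n : ℕ} {Q : Type} [Group Q] (η : G0 0 n → Q) :
    evalB η (word0 0 n) = (List.ofFn fun j : Fin n => η (Sum.inr j)).prod := by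
  rw [← rel_eq]
  simp

variable {n : ℕ} {b : Fin n → ℂ}

theorem plane (hb : StrictMono fun j => (b j).re) (w0 : ↥(range b)ᶜ) :
    ∃ δ : G0 0 (n + 1) → FundamentalGroup ↥(range b)ᶜ w0,
      IsOrb 0 (n + 1) (fun _ => 0) _ δ ∧
      (∀ j, ∃ N ∈ 𝓝 (b j), ∃ i, Peri w0 ((↑) ⁻¹' N) (δ (Sum.inr i))) ∧
      ∃ R : ℝ, ∃ i, Peri w0 ((↑) ⁻¹' {z : ℂ | R < ‖z‖}) (δ (Sum.inr i)) := by
  classical
  have := pathConnectedSpace_compl b
  obtain ⟨κ, hκ, hκu⟩ := exists_univ w0
  have h1 : (1 : ℝ) * 1 = 1 := by norm_num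
  have h2 : (-1 : ℝ) * (-1) = 1 := by norm_num
  obtain ⟨ap, hap⟩ := (null_up b h1).exists_pot κ
  obtain ⟨am, ham⟩ := (null_up b h2).exists_pot κ
  have hs : ∀ k, ∃ z : ↥(range b)ᶜ, (z : ℂ) ∈ Strip b k := fun k =>
    (isPathConnected_strip hb k).nonempty
  choose s hs using hs
  let ε : ℕ → FundamentalGroup ↥(range b)ᶜ w0 := fun k => am (s k) * (ap (s k))⁻¹
  have hε : ∀ k (z : ↥(range b)ᶜ), (z : ℂ) ∈ Strip b k → am z * (ap z)⁻¹ = ε k := by
    intro k z hz
    obtain ⟨p, hp⟩ := (isPathConnected_strip hb k).joinedIn z hz (s k) (hs k)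
    have e1 := hap _ _ p fun t => strip_subset b k 1 (hp t)
    have e2 := ham _ _ p fun t => strip_subset b k (-1) (hp t)
    rw [e1] at e2
    calc am z * (ap z)⁻¹ = am (s k) * ((am (s k))⁻¹ * am z) * (ap z)⁻¹ := by group
      _ = am (s k) * ((ap (s k))⁻¹ * ap z) * (ap z)⁻¹ := by rw [e2]
      _ = ε k := by simp only [ε]; group
  let d : Fin (n + 1) → FundamentalGroup ↥(range b)ᶜ w0 := fun j =>
    if (j : ℕ) < n then (ε j)⁻¹ * ε (j + 1) else (ε n)⁻¹ * ε 0
  have hd1 : ∀ j : Fin n, d j.castSucc = (ε j)⁻¹ * ε (j + 1) := fun j => by simp [d]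
  have hd2 : d (Fin.last n) = (ε n)⁻¹ * ε 0 := by simp [d]
  -- the generation lemma
  have hgen : ∀ (N A B : Set ℂ), IsOpen A → IsOpen B → A ⊆ Up b 1 → B ⊆ Up b (-1) →
      (∀ z ∈ N, z ∉ range b → z ∈ A ∨ z ∈ B) →
      ∀ (Γ : Subgroup (FundamentalGroup ↥(range b)ᶜ w0)) (k0 : ℕ),
      (∀ z ∈ N, z ∈ A → z ∈ B → ∃ k, z ∈ Strip b k ∧ (ε k0)⁻¹ * ε k ∈ Γ) →
      ∃ v : ↥(range b)ᶜ → FundamentalGroup ↥(range b)ᶜ w0, ∀ (x : ↥(range b)ᶜ) (c : Path x x),
        (∀ t, (c t : ℂ) ∈ N) → v x * κ.v c * (v x)⁻¹ ∈ Γ := by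
    intro N A B hA hB hA' hB' hN Γ k0 hΓ
    obtain ⟨v, hv⟩ := gen_two κ (A := Subtype.val ⁻¹' A) (B := Subtype.val ⁻¹' B)
      (N := Subtype.val ⁻¹' N)
      (hA.preimage continuous_subtype_val) (hB.preimage continuous_subtype_val)
      (fun z hz => hN z hz z.2) (a := ap) (b := fun z => (ε k0)⁻¹ * am z)
      (fun x y p hp => hap x y p fun t => hA' (hp t))
      (fun x y p hp => by
        rw [ham x y p fun t => hB' (hp t)]
        group) Γ (fun z hz hzA hzB => by
          obtain ⟨k, hk, hk'⟩ := hΓ z hz hzA hzB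
          rw [mul_assoc, hε k z hk]
          exact hk')
    exact ⟨v, fun x c hc => hv x x c hc⟩
  have hperi : ∀ (N : Set ℂ) (e : FundamentalGroup ↥(range b)ᶜ w0),
      (∃ v : ↥(range b)ᶜ → FundamentalGroup ↥(range b)ᶜ w0, ∀ (x : ↥(range b)ᶜ) (c : Path x x),
        (∀ t, (c t : ℂ) ∈ N) → v x * κ.v c * (v x)⁻¹ ∈ Subgroup.zpowers e) →
      Peri w0 ((↑) ⁻¹' N) e := by
    rintro N e ⟨v, hv⟩ x σ c hc
    obtain ⟨a, ha⟩ := Subgroup.mem_zpowers_iff.1 (hv x c hc)
    refine ⟨(κ.v σ)⁻¹ * (v x)⁻¹, a, ?_⟩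
    rw [← hκ (conjLoop σ c), κ.toHom_conjLoop, ha]
    group
  refine ⟨Sum.elim (fun q => q.1.elim0) d, ⟨?_, fun j => pow_zero _, ?_, ?_⟩, ?_, ?_⟩
  · rw [evalB_zero, List.ofFn_succ', List.concat_eq_append, List.prod_append]
    simp only [Sum.elim_inr, hd1, hd2, List.prod_cons, List.prod_nil, mul_one]
    rw [prod_tele ε n]
    group
  · set Γ := Subgroup.closure (range (Sum.elim (fun q => q.1.elim0) d :
      G0 0 (n + 1) → FundamentalGroup ↥(range b)ᶜ w0)) with hΓ
    have hmem : ∀ k ≤ n, (ε 0)⁻¹ * ε k ∈ Γ := by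
      intro k hk
      induction k with
      | zero => rw [inv_mul_cancel]; exact Γ.one_mem
      | succ k ih =>
        have h3 : d (Fin.castSucc ⟨k, hk⟩) ∈ Γ :=
          Subgroup.subset_closure ⟨Sum.inr (Fin.castSucc ⟨k, hk⟩), rfl⟩
        rw [hd1] at h3
        have := Γ.mul_mem (ih (Nat.le_of_succ_le hk)) h3
        convert this using 1
        group
    obtain ⟨v, hv⟩ := hgen univ (Up b 1) (Up b (-1)) (isOpen_up b _) (isOpen_up b _) subset_rfl
      subset_rfl (fun z _ hz => up_cover hb hz) Γ 0 (fun z _ hz hz' => by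
        obtain ⟨k, hk, hk'⟩ := exists_strip hb (not_re_of_up b hz hz')
        exact ⟨k, hk', hmem k hk⟩)
    rw [eq_top_iff]
    intro g _
    obtain ⟨c, hc⟩ := Path.Homotopic.Quotient.mk_surjective ((v w0)⁻¹ * g * v w0)
    have h3 := hv w0 c fun _ => mem_univ _
    rw [← κ.toHom_mk, hκ, hc] at h3
    convert h3 using 1
    group
  · intro Q _ η hη _
    let η' : ℕ → Q := fun j => if h : j < n + 1 then η (Sum.inr ⟨j, h⟩) else 1
    let θ : ℕ → Q := fun k => (List.ofFn fun j : Fin k => η' j).prod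
    have hθ0 : θ 0 = 1 := by simp [θ]
    have hθs : ∀ k, θ (k + 1) = θ k * η' k := fun k => by
      simp only [θ]
      rw [List.ofFn_succ', List.concat_eq_append, List.prod_append]
      simp
    have hθn : θ (n + 1) = 1 := by
      rw [evalB_zero] at hη
      rw [← hη]
      simp only [θ, η']
      congr 2
      funext j
      rw [dif_pos j.2]
    let idx : ℂ → ℕ := fun z => if h : ∃ k, k ≤ n ∧ z ∈ Strip b k then h.choose else 0
    have hidx : ∀ z k, k ≤ n → z ∈ Strip b k → idx z = k := by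
      intro z k hk hz
      have h : ∃ k, k ≤ n ∧ z ∈ Strip b k := ⟨k, hk, hz⟩
      simp only [idx, dif_pos h]
      exact strip_unique b h.choose_spec.1 hk h.choose_spec.2 hz
    let ρ : Bool → ↥(range b)ᶜ → Q := fun e z => if e then 1 else θ (idx z)
    let U : Bool → Set ↥(range b)ᶜ := fun e => if e then (↑) ⁻¹' Up b 1 else (↑) ⁻¹' Up b (-1)
    have hlc : ∀ x : ↥(range b)ᶜ, (x : ℂ) ∈ Up b 1 → (x : ℂ) ∈ Up b (-1) →
        ∀ᶠ y : ↥(range b)ᶜ in 𝓝 x, idx y = idx x := by
      intro x hx hx'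
      obtain ⟨k, hk, hk'⟩ := exists_strip hb (not_re_of_up b hx hx')
      filter_upwards [((isOpen_strip b k).preimage continuous_subtype_val).mem_nhds hk'] with y hy
      rw [hidx _ k hk hy, hidx _ k hk hk']
    obtain ⟨φ, t, ht, ht'⟩ := exists_holonomy U (by
        intro e
        cases e
        · exact (isOpen_up b _).preimage continuous_subtype_val
        · exact (isOpen_up b _).preimage continuous_subtype_val) (by
        intro x
        rcases up_cover hb x.2 with h | h
        · exact ⟨true, h⟩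
        · exact ⟨false, h⟩) (fun i j z => ρ j z * (ρ i z)⁻¹) (by
        rintro i j x ⟨hi, hj⟩
        cases i <;> cases j
        · simp
        · filter_upwards [hlc x hj hi] with y hy
          simp only [ρ, hy]
        · filter_upwards [hlc x hi hj] with y hy
          simp only [ρ, hy]
        · simp) (fun i j k x _ => by group)
    obtain ⟨sQ, hsQ⟩ := hκu Q φ
    have hconst : ∀ (V : Set ↥(range b)ᶜ) (a : ↥(range b)ᶜ → FundamentalGroup ↥(range b)ᶜ w0)
        (τ : ↥(range b)ᶜ → Q), IsPathConnected V → κ.Pot V a → φ.Pot V τ →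
        ∃ c : Q, ∀ z ∈ V, φ.toHom w0 (a z) = c⁻¹ * τ z * sQ z := by
      intro V a τ hV ha hτ
      obtain ⟨z0, hz0⟩ := hV.nonempty
      refine ⟨τ z0 * sQ z0 * (φ.toHom w0 (a z0))⁻¹, fun z hz => ?_⟩
      obtain ⟨p, hp⟩ := hV.joinedIn z hz z0 hz0
      have e1 := hsQ _ _ p
      rw [ha _ _ p hp, hτ _ _ p hp, map_mul, map_inv] at e1
      calc φ.toHom w0 (a z) = φ.toHom w0 (a z0) * ((φ.toHom w0 (a z0))⁻¹ * φ.toHom w0 (a z)) := by
            group
        _ = _ := by rw [e1]; group
    obtain ⟨cp, hcp⟩ := hconst _ ap (t true) (isPathConnected_up b h1) hap (ht true)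
    obtain ⟨cm, hcm⟩ := hconst _ am (t false) (isPathConnected_up b h2) ham (ht false)
    have hΦε : ∀ k ≤ n, φ.toHom w0 (ε k) = cm⁻¹ * θ k * cp := by
      intro k hk
      have e1 := hcp (s k) (strip_subset b k 1 (hs k))
      have e2 := hcm (s k) (strip_subset b k (-1) (hs k))
      have e3 := ht' true false (s k) ⟨strip_subset b k 1 (hs k), strip_subset b k (-1) (hs k)⟩
      simp only [ρ, hidx _ k hk (hs k), if_true, Bool.false_eq_true, if_false, inv_one,
        mul_one] at e3
      simp only [ε]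
      rw [map_mul, map_inv, e1, e2, e3]
      group
    refine ⟨(MulAut.conj cp).toMonoidHom.comp (φ.toHom w0), ?_⟩
    rintro (q | j)
    · exact q.1.elim0
    · change cp * φ.toHom w0 (d j) * cp⁻¹ = _
      refine Fin.lastCases ?_ (fun j => ?_) j
      · rw [hd2, map_mul, map_inv, hΦε n le_rfl, hΦε 0 (Nat.zero_le n), hθ0]
        have e1 := hθs n
        rw [hθn] at e1
        have e2 : η' n = η (Sum.inr (Fin.last n)) := by
          simp only [η', dif_pos (Nat.lt_succ_self n)]
          rfl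
        rw [← e2, eq_inv_of_mul_eq_one_right e1.symm]
        group
      · rw [hd1, map_mul, map_inv, hΦε j j.2.le, hΦε (j + 1) j.2, hθs]
        have e2 : η' j = η (Sum.inr j.castSucc) := by
          simp only [η', dif_pos (Nat.lt_succ_of_lt j.2)]
          rfl
        rw [← e2]
        group
  · intro j
    let N : Set ℂ := {z | ∀ i, (i < j → (b i).re < z.re) ∧ (j < i → z.re < (b i).re)}
    have hN : IsOpen N := by
      have : N = ⋂ i : Fin n, ((⋂ _ : i < j, {z : ℂ | (b i).re < z.re}) ∩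
          ⋂ _ : j < i, {z : ℂ | z.re < (b i).re}) := by
        ext z
        simp only [N, mem_ofPred_eq, mem_iInter, mem_inter_iff]
      rw [this]
      refine isOpen_iInter_of_finite fun j => IsOpen.inter ?_ ?_
      · exact isOpen_iInter_of_finite fun _ => isOpen_lt continuous_const Complex.continuous_re
      · exact isOpen_iInter_of_finite fun _ => isOpen_lt Complex.continuous_re continuous_const
    refine ⟨N, hN.mem_nhds fun i => ⟨fun h => hb h, fun h => hb h⟩, j.castSucc, hperi _ _ ?_⟩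
    refine hgen N (Up b 1) (Up b (-1)) (isOpen_up b _) (isOpen_up b _) subset_rfl
      subset_rfl (fun z _ hz => up_cover hb hz) _ j fun z hz hz1 hz2 => ?_
    rcases lt_or_gt_of_ne (not_re_of_up b hz1 hz2 j) with h | h
    · refine ⟨j, fun i => ⟨fun hi => (hz i).1 hi, fun hi => ?_⟩, ?_⟩
      · rcases eq_or_lt_of_le hi with h' | h'
        · rw [← Fin.ext h']
          exact h
        · exact (hz i).2 h'
      · rw [inv_mul_cancel]
        exact Subgroup.one_mem _
    · refine ⟨j + 1, fun i => ⟨fun hi => ?_, fun hi => (hz i).2 hi⟩, ?_⟩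
      · rcases eq_or_lt_of_le (Nat.le_of_lt_succ hi) with h' | h'
        · rw [Fin.ext h']
          exact h
        · exact (hz i).1 h'
      · rw [← hd1]
        exact Subgroup.mem_zpowers _
  · obtain ⟨R, hR0, hR⟩ : ∃ R : ℝ, 0 ≤ R ∧ ∀ j, ‖b j‖ ≤ R := by
      obtain ⟨M, hM⟩ := (finite_range fun j => ‖b j‖).bddAbove
      exact ⟨max 0 M, le_max_left _ _, fun j => (hM ⟨j, rfl⟩).trans (le_max_right _ _)⟩
    have hre : ∀ j, |(b j).re| ≤ R := fun j => (Complex.abs_re_le_norm _).trans (hR j)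
    have him : ∀ j, |(b j).im| ≤ R := fun j => (Complex.abs_im_le_norm _).trans (hR j)
    have hab : IsOpen {z : ℂ | R < |z.re|} := isOpen_lt continuous_const (by fun_prop)
    refine ⟨2 * R, Fin.last n, hperi _ _ ?_⟩
    refine hgen _ ({z | R < z.im} ∪ {z | R < |z.re|}) ({z | z.im < -R} ∪ {z | R < |z.re|})
      ((isOpen_lt continuous_const Complex.continuous_im).union hab)
      ((isOpen_lt Complex.continuous_im continuous_const).union hab) ?_ ?_ ?_ _ n ?_
    · rintro z (hz | hz) j hj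
      · have := (abs_le.1 (him j)).2
        have hz' : R < z.im := hz
        linarith
      · have hz' : R < |z.re| := hz
        rw [hj] at hz'
        exact absurd (hre j) (not_le.2 hz')
    · rintro z (hz | hz) j hj
      · have := (abs_le.1 (him j)).1
        have hz' : z.im < -R := hz
        linarith
      · have hz' : R < |z.re| := hz
        rw [hj] at hz'
        exact absurd (hre j) (not_le.2 hz')
    · intro z hz _
      have hz' : 2 * R < ‖z‖ := hz
      have h3 := Complex.norm_le_abs_re_add_abs_im z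
      by_cases h4 : R < |z.re|
      · exact Or.inl (Or.inr h4)
      · have h5 : R < |z.im| := by linarith [not_lt.1 h4]
        rcases lt_abs.1 h5 with h | h
        · exact Or.inl (Or.inl h)
        · exact Or.inr (Or.inl (show z.im < -R by linarith))
    · intro z _ hA hB
      have h4 : R < |z.re| := by
        rcases hA with hA | hA
        · rcases hB with hB | hB
          · have e1 : R < z.im := hA
            have e2 : z.im < -R := hB
            linarith
          · exact hB
        · exact hA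
      rcases lt_abs.1 h4 with h | h
      · refine ⟨n, fun i => ⟨fun _ => ?_, fun hi => absurd i.2 (not_lt.2 hi)⟩, ?_⟩
        · linarith [(abs_le.1 (hre i)).2]
        · rw [inv_mul_cancel]
          exact Subgroup.one_mem _
      · refine ⟨0, fun i => ⟨fun hi => absurd hi (Nat.not_lt_zero _), fun _ => ?_⟩, ?_⟩
        · linarith [(abs_le.1 (hre i)).1]
        · rw [← hd2]
          exact Subgroup.mem_zpowers _

end Vale.Agent.P002Z
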