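import Vale.Agent.P002Z.Branch
import Vale.Agent.P002Z.PlaneB

/-!
# The fundamental group of a punctured compact Riemann surface is an orbicurve group
-/

namespace Vale.Agent.P002Z

open Set Filter Topology Metric OnePoint Vale.Agent.P002.H252
open scoped Manifold

theorem map_conjLoop {X Y : Type} [TopologicalSpace X] [TopologicalSpace Y] (f : C(X, Y))
    {x y : X} (σ : Path x y) (c : Path y y) :
    FundamentalGroup.map f x (conjLoop σ c) =
      conjLoop (σ.map f.continuous) (c.map f.continuous) := by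
  change Path.Homotopic.Quotient.mk ((σ.trans (c.trans σ.symm)).map f.continuous) = _
  rw [Path.map_trans, Path.map_trans, ← Path.map_symm]
  rfl

theorem index_range_ne_zero {E X : Type} [TopologicalSpace E] [TopologicalSpace X] {p : E → X}
    (cov : IsCoveringMap p) (e : E) (hfin : (p ⁻¹' {p e}).Finite) :
    (FundamentalGroup.map ⟨p, cov.continuous⟩ e).range.index ≠ 0 := by
  let _ := cov.fundamentalGroupMulAction (p e)
  have : Finite (p ⁻¹' {p e}) := hfin
  have h1 : (MulAction.stabilizer (FundamentalGroup X (p e))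
      (⟨e, rfl⟩ : p ⁻¹' {p e})).FiniteIndex := by
    refine ⟨?_⟩
    rw [MulAction.index_stabilizer]
    exact Set.ncard_ne_zero_of_mem (MulAction.mem_orbit_self _)
  refine (Subgroup.finiteIndex_of_le (H := MulAction.stabilizer (FundamentalGroup X (p e))
      (⟨e, rfl⟩ : p ⁻¹' {p e})) ?_).index_ne_zero
  intro γ hγ
  have h2 : cov.monodromy γ ⟨e, rfl⟩ = ⟨e, rfl⟩ := hγ
  have h3 := cov.map_liftPathQuotient γ ⟨e, rfl⟩
  refine ⟨(cov.liftPathQuotient γ ⟨e, rfl⟩).cast rfl congr(($h2.symm).1), ?_⟩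
  change Path.Homotopic.Quotient.map _ _ = _
  rw [Path.Homotopic.Quotient.map_cast, h3]
  exact eq_of_heq ((Path.Homotopic.Quotient.cast_heq _ _).trans
    (Path.Homotopic.Quotient.cast_heq _ _))

/-- `γ` is represented by loops in arbitrarily small neighbourhoods of `p`. -/
def LocalAt {M : Type} [TopologicalSpace M] (D : Set M) (x0 : ↥Dᶜ) (p : M)
    (γ : FundamentalGroup ↥Dᶜ x0) : Prop :=
  ∀ O ∈ 𝓝 p, ∃ (y : ↥Dᶜ) (σ : Path x0 y) (c : Path y y),
    (∀ t, (c t : M) ∈ O) ∧ γ = conjLoop σ c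

variable {M : Type} [TopologicalSpace M] [ChartedSpace ℂ M] [T2Space M] [CompactSpace M]
  [ConnectedSpace M] [IsManifold 𝓘(ℂ) 1 M]

theorem curve_isOrb {D : Set M} (hD : D.Finite) (x0 : ↥Dᶜ) :
    ∃ (g n : ℕ) (m : Fin n → ℕ) (δ : G0 g n → FundamentalGroup ↥Dᶜ x0), IsOrb g n m _ δ ∧
      ∀ p ∈ D, ∀ γ, LocalAt D x0 p γ →
        ∃ (i : Fin n) (h : FundamentalGroup ↥Dᶜ x0) (a : ℤ),
          γ = h * δ (Sum.inr i) ^ a * h⁻¹ := by
  classical
  obtain ⟨n, b, F, hb, hFc, hFf, hcov, hDS⟩ := exists_cover hD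
  set s : Set (OnePoint ℂ) := ((↑) : ℂ → OnePoint ℂ) '' (range b)ᶜ with hs
  set S : Set M := F ⁻¹' s with hS
  have hSD : S ⊆ Dᶜ := fun x hx hxD => hDS x hxD hx
  have hcases : ∀ x ∉ S, F x = ∞ ∨ ∃ j, F x = b j := by
    intro x hx
    induction hFx : F x using OnePoint.rec with
    | infty => exact Or.inl rfl
    | coe w =>
      right
      by_contra hcon
      refine hx ⟨w, ?_, hFx.symm⟩
      rintro ⟨j, rfl⟩
      exact hcon ⟨j, rfl⟩
  have hSf : Sᶜ.Finite := by
    refine ((hFf ∞).union (finite_iUnion fun j => hFf (b j))).subset fun x hx => ?_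
    rcases hcases x hx with h | ⟨j, h⟩
    · exact Or.inl h
    · exact Or.inr (mem_iUnion.2 ⟨j, h⟩)
  have hSo : IsOpen S := by
    rw [← compl_compl S]
    exact hSf.isClosed.isOpen_compl
  have hSp : IsPathConnected S := by
    rw [← compl_compl S]
    exact isPathConnected_compl_finite hSf
  have : PathConnectedSpace S := isPathConnected_iff_pathConnectedSpace.1 hSp
  have : PathConnectedSpace ↥Dᶜ :=
    isPathConnected_iff_pathConnectedSpace.1 (isPathConnected_compl_finite hD)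
  have : LocallyPathConnectedSpace S := by
    have := ChartedSpace.locallyPathConnectedSpace ℂ M
    exact hSo.locallyPathConnectedSpace
  let η : ↥(range b)ᶜ ≃ₜ s := isOpenEmbedding_coe.isEmbedding.homeomorphImage _
  let fU : S → ↥(range b)ᶜ := η.symm ∘ s.restrictPreimage F
  have cov : IsCoveringMap fU := hcov.isCoveringMap_restrictPreimage.homeomorph_comp η.symm
  have hfU : ∀ u : S, ((fU u : ℂ) : OnePoint ℂ) = F u := fun u =>
    congrArg Subtype.val (η.apply_symm_apply (s.restrictPreimage F u))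
  obtain ⟨u0⟩ : Nonempty S := inferInstance
  obtain ⟨δ0, hδ0, hp1, R, iR, hp2⟩ := plane hb (fU u0)
  let fs : FundamentalGroup S u0 →* FundamentalGroup ↥(range b)ᶜ (fU u0) :=
    FundamentalGroup.map ⟨fU, cov.continuous⟩ u0
  have hinj : Function.Injective fs := cov.injective_path_homotopic_map u0 u0
  have hidx : fs.range.index ≠ 0 := by
    refine index_range_ne_zero cov u0 ?_
    refine ((hFf (F u0)).preimage Subtype.val_injective.injOn).subset fun u hu => ?_
    have h1 : fU u = fU u0 := hu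
    change F u = F u0
    rw [← hfU, ← hfU, h1]
  obtain ⟨g', n', m', δ', hδ', hper⟩ := finiteIndex_isOrb hδ0 fs.range hidx
  let e : FundamentalGroup S u0 ≃* fs.range := MonoidHom.ofInjective hinj
  have hloc : ∀ x : M, ∃ O ∈ 𝓝 x, x ∉ S → ∀ (y : S) (ρ : Path u0 y) (c : Path y y),
      (∀ t, (c t : M) ∈ O) → ∃ (i : Fin n') (h : fs.range) (a : ℤ),
        e (conjLoop ρ c) = h * δ' (Sum.inr i) ^ a * h⁻¹ := by
    intro x
    have key : ∀ (N : Set ℂ) (i : Fin (n + 1)) (O : Set M), Peri (fU u0) ((↑) ⁻¹' N)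
        (δ0 (Sum.inr i)) → (∀ u : S, (u : M) ∈ O → (fU u : ℂ) ∈ N) →
        ∀ (y : S) (ρ : Path u0 y) (c : Path y y), (∀ t, (c t : M) ∈ O) →
        ∃ (i : Fin n') (h : fs.range) (a : ℤ),
          e (conjLoop ρ c) = h * δ' (Sum.inr i) ^ a * h⁻¹ := by
      intro N i O hN hO y ρ c hc
      obtain ⟨h, a, hh⟩ := hN (fU y) (ρ.map cov.continuous) (c.map cov.continuous)
        fun t => hO _ (hc t)
      have h1 : fs (conjLoop ρ c) = h * δ0 (Sum.inr i) ^ a * h⁻¹ :=
        (map_conjLoop ⟨fU, cov.continuous⟩ ρ c).trans hh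
      obtain ⟨i', h', a', hh'⟩ := hper i h a ⟨_, h1⟩
      exact ⟨i', h', a', (Subtype.ext h1).trans hh'⟩
    by_cases hx : x ∈ S
    · exact ⟨univ, univ_mem, fun h => absurd hx h⟩
    rcases hcases x hx with h | ⟨j, h⟩
    · refine ⟨F ⁻¹' (((↑) : ℂ → OnePoint ℂ) '' closedBall 0 R)ᶜ, ?_, fun _ => key _ iR _ hp2 ?_⟩
      · refine hFc.continuousAt ((isOpen_compl_image_coe.2
          ⟨isClosed_closedBall, isCompact_closedBall _ _⟩).mem_nhds ?_)
        rw [h]
        exact infty_notMem_image_coe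
      · intro u hu
        by_contra hcon
        exact hu ⟨fU u, mem_closedBall_zero_iff.2 (not_lt.1 hcon), hfU u⟩
    · obtain ⟨N, hN, i, hi⟩ := hp1 j
      refine ⟨F ⁻¹' (((↑) : ℂ → OnePoint ℂ) '' N), ?_, fun _ => key _ i _ hi ?_⟩
      · refine hFc.continuousAt ?_
        rw [h]
        exact isOpenEmbedding_coe.image_mem_nhds.2 hN
      · rintro u ⟨z, hz, hz'⟩
        rw [← hfU] at hz'
        rw [← coe_injective hz']
        exact hz
  choose O hO hO' using hloc
  obtain ⟨Dd, hι, hj⟩ := exists_fill hSo hD.isClosed.isOpen_compl hSD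
    (fun x _ => by simpa using eventually_notMem_of_finite hSf x) O fun x _ => hO x
  have hιv : ∀ u : S, (Dd.ι u : M) = u := fun u => by rw [hι]; rfl
  obtain ⟨κ, hκ, hκu⟩ := exists_univ x0
  obtain ⟨κS, hκS, -⟩ := exists_univ u0
  let lam0 : FundamentalGroup S u0 →* FundamentalGroup ↥Dᶜ x0 := (κ.comap Dd.ι).toHom u0
  let lam : fs.range →* FundamentalGroup ↥Dᶜ x0 := lam0.comp e.symm.toMonoidHom
  have hlam : ∀ a, lam (e a) = lam0 a := fun a => congrArg lam0 (e.symm_apply_apply a)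
  have hsurj : Function.Surjective lam := by
    intro g
    let τ : Path x0 (Dd.ι u0) := PathConnectedSpace.somePath _ _
    obtain ⟨c, hc⟩ := Path.Homotopic.Quotient.mk_surjective ((κ.v τ)⁻¹ * g * κ.v τ)
    obtain ⟨q, hq⟩ := Dd.surj κ u0 u0 (τ.symm.trans (c.trans τ))
    refine ⟨e (Path.Homotopic.Quotient.mk q), ?_⟩
    rw [hlam]
    change κ.v (q.map Dd.ι.continuous) = g
    rw [hq, κ.trans, κ.trans, κ.symm, ← κ.toHom_mk c, hκ, hc]
    group
  refine ⟨g', n', fun i => orderOf (lam (δ' (Sum.inr i))), fun s => lam (δ' s),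
    ⟨?_, fun i => pow_orderOf_eq_one _, ?_, ?_⟩, ?_⟩
  · rw [← map_evalB, hδ'.rel, map_one]
  · have h1 : (range fun s => lam (δ' s)) = lam '' range δ' := range_comp lam δ'
    rw [h1, ← MonoidHom.map_closure, hδ'.gen, ← MonoidHom.range_eq_map,
      MonoidHom.range_eq_top.2 hsurj]
  · intro Q _ ζ hζ1 hζ2
    have hz : ∀ i (a : ℤ), lam (δ' (Sum.inr i)) ^ a = 1 → ζ (Sum.inr i) ^ a = 1 := by
      intro i a h
      obtain ⟨k, rfl⟩ := orderOf_dvd_iff_zpow_eq_one.2 h
      rw [zpow_mul, zpow_natCast, hζ2 i, one_zpow]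
    obtain ⟨Ψ, hΨ⟩ := hδ'.univ Q ζ hζ1 fun i => by
      have h := hz i (m' i) (by rw [zpow_natCast, ← map_pow, hδ'.tors i, map_one])
      rwa [zpow_natCast] at h
    let ψ : FundamentalGroup S u0 →* Q := Ψ.comp e.toMonoidHom
    obtain ⟨Φ, h, hΦ⟩ := Dd.ext (κS.post ψ) (by
      intro x hx y c hc
      have hxS : (x : M) ∉ S := fun h => hx ⟨⟨x, h⟩, Subtype.ext (hιv _)⟩
      let ρ : Path u0 y := PathConnectedSpace.somePath _ _
      obtain ⟨i, h, a, hh⟩ := hO' x hxS y ρ c fun t => by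
        obtain ⟨z, hz⟩ := hc t
        rw [← hιv, ← hz]
        exact hj x z
      have h1 : lam0 (conjLoop ρ c) = 1 := by
        have h2 : (κ.comap Dd.ι).v c = 1 := by
          change κ.v (c.map Dd.ι.continuous) = 1
          rw [κ.hom (Dd.null x _ (c.map Dd.ι.continuous) hc), κ.refl]
        rw [(κ.comap Dd.ι).toHom_conjLoop, h2, mul_one, inv_mul_cancel]
      rw [← hlam, hh, map_mul, map_mul, map_inv, map_zpow, mul_inv_eq_one, mul_eq_left] at h1
      have h3 : ψ (conjLoop ρ c) = 1 := by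
        change Ψ (e (conjLoop ρ c)) = 1
        rw [hh, map_mul, map_mul, map_inv, map_zpow, hΨ, hz i a h1, mul_one, mul_inv_cancel]
      rw [← hκS (conjLoop ρ c), κS.toHom_conjLoop, map_mul, map_mul, map_inv, mul_assoc,
        inv_mul_eq_one, eq_comm, mul_eq_right] at h3
      exact h3)
    obtain ⟨sQ, hsQ⟩ := hκu Q Φ
    have h4 : ∀ a, (h u0 * sQ (Dd.ι u0)) * Φ.toHom x0 (lam0 a) * (h u0 * sQ (Dd.ι u0))⁻¹ =
        ψ a := by
      intro a
      obtain ⟨q, rfl⟩ := Path.Homotopic.Quotient.mk_surjective a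
      have h5 : lam0 (Path.Homotopic.Quotient.mk q) = κ.v (q.map Dd.ι.continuous) := rfl
      have h6 : (κS.post ψ).v q = ψ (Path.Homotopic.Quotient.mk q) := by
        change ψ (κS.v q) = _
        rw [← κS.toHom_mk, hκS]
      rw [h5, hsQ, hΦ, h6]
      group
    refine ⟨(MulAut.conj (h u0 * sQ (Dd.ι u0))).toMonoidHom.comp (Φ.toHom x0), fun s => ?_⟩
    have h7 := h4 (e.symm (δ' s))
    rw [← hΨ s, ← e.apply_symm_apply (δ' s)]
    rw [hlam]
    exact h7
  · intro p hp γ hγ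
    have hpS : p ∉ S := fun h => hSD h hp
    have hev : ∀ᶠ y in 𝓝[≠] p, y ∈ S := by simpa using eventually_notMem_of_finite hSf p
    obtain ⟨y, σ, c, hc, rfl⟩ := hγ (O p ∩ {y | y ≠ p → y ∈ S}) (inter_mem (hO p)
      (eventually_nhdsWithin_iff.1 hev))
    have hcS : ∀ t, (c t : M) ∈ S := fun t => (hc t).2 fun h => (c t).2 (h ▸ hp)
    have hyS : (y : M) ∈ S := c.source ▸ hcS 0
    let c' : Path (⟨y, hyS⟩ : S) ⟨y, hyS⟩ :=
      { toFun := fun t => ⟨c t, hcS t⟩
        continuous_toFun := (continuous_subtype_val.comp c.continuous).subtype_mk _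
        source' := Subtype.ext (congrArg (Subtype.val : ↥Dᶜ → M) c.source)
        target' := Subtype.ext (congrArg (Subtype.val : ↥Dᶜ → M) c.target) }
    let ρ : Path u0 ⟨y, hyS⟩ := PathConnectedSpace.somePath _ _
    obtain ⟨i, h, a, hh⟩ := hO' p hpS _ ρ c' fun t => (hc t).1
    have h1 : (κ.comap Dd.ι).v c' = κ.v c := κ.congr fun t => Subtype.ext (hιv _)
    have h2 : lam0 (conjLoop ρ c') = ((κ.comap Dd.ι).v ρ)⁻¹ * κ.v c * (κ.comap Dd.ι).v ρ := by
      rw [(κ.comap Dd.ι).toHom_conjLoop, h1]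
    rw [← hlam, hh, map_mul, map_mul, map_inv, map_zpow] at h2
    refine ⟨i, (κ.v σ)⁻¹ * (κ.comap Dd.ι).v ρ * lam h, a, ?_⟩
    rw [← hκ (conjLoop σ c), κ.toHom_conjLoop]
    calc (κ.v σ)⁻¹ * κ.v c * κ.v σ = (κ.v σ)⁻¹ * (κ.comap Dd.ι).v ρ *
          (((κ.comap Dd.ι).v ρ)⁻¹ * κ.v c * (κ.comap Dd.ι).v ρ) *
          ((κ.comap Dd.ι).v ρ)⁻¹ * κ.v σ := by group
      _ = _ := by rw [← h2]; group

end Vale.Agent.P002Z
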