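import Vale.Agent.P002Z.Main
import Vale.Agent.P002Z.Defs

/-!
# Meridians exist and can be moved into small neighbourhoods of the puncture
-/

namespace Vale.Agent.P002Z

open Set Filter Topology Metric
open scoped Manifold Real

variable {M : Type} [TopologicalSpace M] [ChartedSpace ℂ M]

theorem IsMeridian.localAt {D : Set M} {x0 : ↥Dᶜ} [PathConnectedSpace ↥Dᶜ] {p : M}
    {γ : FundamentalGroup ↥Dᶜ x0} (h : IsMeridian D x0 p γ) : LocalAt D x0 p γ := by
  obtain ⟨z, ε, y, σ, c, -, hp, hε, hb, hD, hc, rfl⟩ := h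
  intro O hO
  let u : ℂ → ℂ := fun w => circleMap (z p) (ε * Real.exp (min w.re 0)) w.im
  have hu : Continuous u := by
    simp only [u, circleMap]
    fun_prop
  have hud : ∀ w, dist (u w) (z p) = ε * Real.exp (min w.re 0) := fun w =>
    mem_sphere.1 (circleMap_mem_sphere _ (by positivity) _)
  have hub : ∀ w, u w ∈ closedBall (z p) ε := fun w => by
    rw [mem_closedBall, hud]
    exact mul_le_of_le_one_right hε.le (Real.exp_le_one_iff.2 (min_le_right _ _))
  have hune : ∀ w, u w ≠ z p := fun w h => by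
    have h1 := hud w
    rw [h, dist_self] at h1
    have : 0 < ε * Real.exp (min w.re 0) := by positivity
    linarith
  let Ψ : C(ℂ, ↥Dᶜ) := ⟨fun w => ⟨z.symm (u w), fun h => hune w (hD _ (hub w) h)⟩,
    (z.continuousOn_symm.comp_continuous hu fun w => hb (hub w)).subtype_mk _⟩
  let T : ℂ := ((2 * π : ℝ) : ℂ) * Complex.I
  have hper : ∀ w, Ψ (w + T) = Ψ w := by
    intro w
    refine Subtype.ext (congrArg z.symm ?_)
    have h1 : (w + T).re = w.re := by simp [T]
    have h2 : (w + T).im = w.im + 2 * π := by simp [T]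
    simp only [u]
    rw [h1, h2, periodic_circleMap]
  have h1 : z.symm ⁻¹' O ∈ 𝓝 (z p) := by
    have := z.continuousAt_symm (z.map_source hp)
    rw [ContinuousAt, z.left_inv hp] at this
    exact this hO
  obtain ⟨r, hr, hrO⟩ := Metric.mem_nhds_iff.1 h1
  obtain ⟨s, hs0, hs⟩ : ∃ s : ℝ, s ≤ 0 ∧ ε * Real.exp s < r := by
    have h2 : Tendsto (fun s : ℝ => ε * Real.exp s) atBot (𝓝 (ε * 0)) :=
      Real.tendsto_exp_atBot.const_mul ε
    rw [mul_zero] at h2
    exact ((eventually_le_atBot 0).and (h2.eventually (gt_mem_nhds hr))).exists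
  obtain ⟨κ, hκ, -⟩ := exists_univ x0
  have hnull : Null (univ : Set ℂ) := fun x q _ => SimplyConnectedSpace.paths_homotopic _ _
  obtain ⟨τ, hτ⟩ := hnull.exists_pot (κ.comap Ψ)
  have hseg : ∀ a a' : ℂ, (κ.comap Ψ).v (Path.segment a a') = (τ a')⁻¹ * τ a := fun a a' =>
    hτ _ _ _ fun _ => mem_univ _
  have hy : y = Ψ 0 := by
    refine Subtype.ext ?_
    rw [← c.source, hc]
    simp [Ψ, u]
  let c' : Path (Ψ s) (Ψ s) :=
    ((Path.segment (s : ℂ) (s + T)).map Ψ.continuous).cast rfl (hper s).symm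
  let ρ : Path y (Ψ s) := ((Path.segment (0 : ℂ) s).map Ψ.continuous).cast hy rfl
  refine ⟨Ψ s, σ.trans ρ, c', fun t => hrO ?_, ?_⟩
  · change u (Path.segment (s : ℂ) (s + T) t) ∈ ball (z p) r
    rw [mem_ball, hud]
    have : (Path.segment (s : ℂ) (s + T) t).re = s := by
      simp [Path.segment_apply, AffineMap.lineMap_apply, T]
    rw [this, min_eq_left hs0]
    exact hs
  · have e1 : κ.v c = (τ T)⁻¹ * τ 0 := by
      rw [← hseg]
      refine κ.congr (q := (Path.segment (0 : ℂ) T).map Ψ.continuous) fun t => Subtype.ext ?_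
      rw [hc]
      change _ = z.symm (u (Path.segment (0 : ℂ) T t))
      have h2 : (Path.segment (0 : ℂ) T t).re = 0 := by
        simp [Path.segment_apply, AffineMap.lineMap_apply, T]
      have h3 : (Path.segment (0 : ℂ) T t).im = 2 * π * t := by
        simp [Path.segment_apply, AffineMap.lineMap_apply, T, mul_comm]
      simp only [u]
      rw [h2, h3, min_self, Real.exp_zero, mul_one]
    have e2 : κ.v c' = (τ (s + T))⁻¹ * τ s := by
      rw [← hseg]
      exact κ.congr fun _ => rfl
    have e3 : κ.v ρ = (τ s)⁻¹ * τ 0 := by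
      rw [← hseg]
      exact κ.congr fun _ => rfl
    have e4 : κ.v ρ = (τ (s + T))⁻¹ * τ T := by
      rw [← hseg]
      refine κ.congr (q := (Path.segment T (s + T)).map Ψ.continuous) fun t => ?_
      change Ψ (Path.segment (0 : ℂ) s t) = Ψ (Path.segment T (s + T) t)
      rw [← hper]
      congr 1
      simp [Path.segment_apply, AffineMap.lineMap_apply]
    change conjLoop σ c = _
    rw [← hκ (conjLoop σ c), ← hκ (conjLoop (σ.trans ρ) c'), κ.toHom_conjLoop, κ.toHom_conjLoop,
      κ.trans, e1, e2]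
    have e5 : τ T = τ (s + T) * κ.v ρ := by rw [e4]; group
    have e6 : τ 0 = τ s * κ.v ρ := by rw [e3]; group
    rw [e5, e6]
    group

theorem exists_meridian [T1Space M] [IsManifold 𝓘(ℂ) 1 M] {D : Set M} (hD : D.Finite)
    (x0 : ↥Dᶜ) [PathConnectedSpace ↥Dᶜ] (p : M) : ∃ γ, IsMeridian D x0 p γ := by
  let z := chartAt ℂ p
  have hp : p ∈ z.source := mem_chart_source ℂ p
  have h1 : z.target ∩ z.symm ⁻¹' {y | y ≠ p → y ∈ Dᶜ} ∈ 𝓝 (z p) := by
    refine inter_mem (z.open_target.mem_nhds (z.map_source hp)) ?_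
    have := z.continuousAt_symm (z.map_source hp)
    rw [ContinuousAt, z.left_inv hp] at this
    exact this (eventually_nhdsWithin_iff.1 (eventually_notMem_of_finite hD p))
  obtain ⟨ε, hε, hb⟩ := Metric.nhds_basis_closedBall.mem_iff.1 h1
  have hD' : ∀ u ∈ closedBall (z p) ε, z.symm u ∈ D → u = z p := by
    intro u hu huD
    by_contra hne
    refine (hb hu).2 (fun h => hne ?_) huD
    rw [← h, z.right_inv (hb hu).1]
  have hm : ∀ θ, circleMap (z p) ε θ ∈ closedBall (z p) ε := fun θ =>
    circleMap_mem_closedBall _ hε.le θ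
  let g : ℝ → ↥Dᶜ := fun θ => ⟨z.symm (circleMap (z p) ε θ), fun h =>
    circleMap_ne_center hε.ne' (hD' _ (hm θ) h)⟩
  have hg : Continuous g :=
    (z.continuousOn_symm.comp_continuous (continuous_circleMap _ _) fun θ => (hb (hm θ)).1).subtype_mk _
  let c : Path (g 0) (g 0) :=
    { toFun := fun t => g (2 * π * t)
      continuous_toFun := hg.comp (by fun_prop)
      source' := by simp
      target' := by
        refine Subtype.ext (congrArg z.symm ?_)
        have := periodic_circleMap (z p) ε 0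
        simpa using this }
  exact ⟨_, z, ε, g 0, PathConnectedSpace.somePath _ _, c, IsManifold.chart_mem_maximalAtlas p, hp,
    hε, fun u hu => (hb hu).1, hD', fun _ => rfl, rfl⟩

end Vale.Agent.P002Z
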