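import Mathlib
import Vale.Agent.P002Z.PF

/-!
# The plane minus finitely many points: the two contractible open sets and the strips
-/

namespace Vale.Agent.P002Z

open Set Filter Topology

/-- Generation lemma for a set covered by two open sets with potentials. -/
theorem gen_two {W F : Type} [TopologicalSpace W] [Group F] (κ : PF W F) {A B N : Set W}
    (hA : IsOpen A) (hB : IsOpen B) (hN : N ⊆ A ∪ B) {a b : W → F} (ha : κ.Pot A a)
    (hb : κ.Pot B b) (Γ : Subgroup F) (hΓ : ∀ z ∈ N, z ∈ A → z ∈ B → b z * (a z)⁻¹ ∈ Γ) :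
    ∃ v : W → F, ∀ x y (p : Path x y), (∀ t, p t ∈ N) → v y * κ.v p * (v x)⁻¹ ∈ Γ := by
  classical
  let v : W → F := fun z => if z ∈ A then a z else b z
  have hva : ∀ z ∈ A, v z * (a z)⁻¹ ∈ Γ := fun z hz => by
    simp only [v, hz, if_true, mul_inv_cancel]
    exact Γ.one_mem
  have hvb : ∀ z ∈ N, z ∈ B → v z * (b z)⁻¹ ∈ Γ := fun z hz hzB => by
    by_cases hzA : z ∈ A
    · simp only [v, hzA, if_true]
      have := Γ.inv_mem (hΓ z hz hzA hzB)
      rwa [mul_inv_rev, inv_inv] at this
    · simp only [v, hzA, if_false, mul_inv_cancel]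
      exact Γ.one_mem
  refine ⟨v, fun x y p hp => ?_⟩
  refine path_induction (fun e : Bool => if e then A else B) ?_ N ?_
    (fun x y p => v y * κ.v p * (v x)⁻¹ ∈ Γ) ?_ ?_ ?_ p hp
  · intro e
    cases e
    · exact hB
    · exact hA
  · intro z hz
    rcases hN hz with h | h
    · exact mem_iUnion.2 ⟨true, h⟩
    · exact mem_iUnion.2 ⟨false, h⟩
  · intro x y p q h hp
    rwa [← κ.hom h]
  · intro x y z p q hp hq
    have := Γ.mul_mem hq hp
    rw [κ.trans]
    convert this using 1
    group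
  · intro e x y p hp
    have hx : x ∈ N ∧ x ∈ (if e then A else B) := p.source ▸ hp 0
    have hy : y ∈ N ∧ y ∈ (if e then A else B) := p.target ▸ hp 1
    cases e
    · rw [hb x y p fun t => (hp t).2]
      have := Γ.mul_mem (hvb y hy.1 hy.2) (Γ.inv_mem (hvb x hx.1 hx.2))
      convert this using 1
      group
    · rw [ha x y p fun t => (hp t).2]
      have := Γ.mul_mem (hva y hy.2) (Γ.inv_mem (hva x hx.2))
      convert this using 1
      group

variable {n : ℕ} (b : Fin n → ℂ)

/-- the plane minus vertical rays from the points `b j` -/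
def Up (e : ℝ) : Set ℂ := {z | ∀ j, z.re = (b j).re → 0 < e * (z.im - (b j).im)}

/-- the vertical strips -/
def Strip (k : ℕ) : Set ℂ :=
  {z | ∀ j : Fin n, ((j : ℕ) < k → (b j).re < z.re) ∧ (k ≤ j → z.re < (b j).re)}

theorem up_subset (e : ℝ) : Up b e ⊆ (range b)ᶜ := by
  rintro z hz ⟨j, rfl⟩
  have := hz j rfl
  simp at this

theorem isOpen_up (e : ℝ) : IsOpen (Up b e) := by
  have : Up b e = ⋂ j, ({z : ℂ | z.re ≠ (b j).re} ∪ {z : ℂ | 0 < e * (z.im - (b j).im)}) := by
    ext z
    simp only [Up, mem_ofPred_eq, mem_iInter, mem_union]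
    exact forall_congr' fun j => by tauto
  rw [this]
  refine isOpen_iInter_of_finite fun j => IsOpen.union ?_ ?_
  · exact isOpen_ne_fun Complex.continuous_re continuous_const
  · exact isOpen_lt continuous_const (by fun_prop)

theorem strip_subset (k : ℕ) (e : ℝ) : Strip b k ⊆ Up b e := by
  intro z hz j hj
  rcases lt_or_ge (j : ℕ) k with h | h
  · exact absurd hj ((hz j).1 h).ne'
  · exact absurd hj ((hz j).2 h).ne

theorem isOpen_strip (k : ℕ) : IsOpen (Strip b k) := by
  have : Strip b k = ⋂ j : Fin n, ((⋂ _ : (j : ℕ) < k, {z : ℂ | (b j).re < z.re}) ∩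
      ⋂ _ : k ≤ j, {z : ℂ | z.re < (b j).re}) := by
    ext z
    simp only [Strip, mem_ofPred_eq, mem_iInter, mem_inter_iff]
  rw [this]
  refine isOpen_iInter_of_finite fun j => IsOpen.inter ?_ ?_
  · exact isOpen_iInter_of_finite fun _ => isOpen_lt continuous_const Complex.continuous_re
  · exact isOpen_iInter_of_finite fun _ => isOpen_lt Complex.continuous_re continuous_const

theorem convex_strip (k : ℕ) : Convex ℝ (Strip b k) := by
  have : Strip b k = ⋂ j : Fin n, ((⋂ _ : (j : ℕ) < k, {z : ℂ | (b j).re < z.re}) ∩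
      ⋂ _ : k ≤ j, {z : ℂ | z.re < (b j).re}) := by
    ext z
    simp only [Strip, mem_ofPred_eq, mem_iInter, mem_inter_iff]
  rw [this]
  refine convex_iInter fun j => Convex.inter ?_ ?_
  · exact convex_iInter fun _ => convex_halfSpace_re_gt _
  · exact convex_iInter fun _ => convex_halfSpace_re_lt _

theorem not_re_of_up {z : ℂ} (h1 : z ∈ Up b 1) (h2 : z ∈ Up b (-1)) (j : Fin n) :
    z.re ≠ (b j).re := by
  intro h
  have h3 := h1 j h
  have h4 := h2 j h
  linarith

theorem strip_unique {z : ℂ} {k l : ℕ} (hk : k ≤ n) (hl : l ≤ n) (h1 : z ∈ Strip b k)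
    (h2 : z ∈ Strip b l) : k = l := by
  rcases lt_trichotomy k l with h | h | h
  · have h3 := (h1 ⟨k, by omega⟩).2 le_rfl
    have h4 := (h2 ⟨k, by omega⟩).1 h
    linarith
  · exact h
  · have h3 := (h2 ⟨l, by omega⟩).2 le_rfl
    have h4 := (h1 ⟨l, by omega⟩).1 h
    linarith

variable {b}

theorem up_cover (hb : StrictMono fun j => (b j).re) {z : ℂ} (hz : z ∉ range b) :
    z ∈ Up b 1 ∨ z ∈ Up b (-1) := by
  by_cases h : ∃ j, z.re = (b j).re
  · obtain ⟨j, hj⟩ := h
    have hne : z.im ≠ (b j).im := fun h => hz ⟨j, (Complex.ext hj h).symm⟩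
    have huniq : ∀ i, z.re = (b i).re → i = j := fun i hi => hb.injective (hi.symm.trans hj)
    rcases lt_or_gt_of_ne hne with h | h
    · right
      intro i hi
      rw [huniq i hi]
      linarith
    · left
      intro i hi
      rw [huniq i hi]
      linarith
  · left
    intro j hj
    exact absurd ⟨j, hj⟩ h

theorem exists_strip (hb : StrictMono fun j => (b j).re) {z : ℂ} (hz : ∀ j, z.re ≠ (b j).re) :
    ∃ k ≤ n, z ∈ Strip b k := by
  classical
  have hex : ∃ k : ℕ, ∀ j : Fin n, k ≤ j → z.re < (b j).re :=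
    ⟨n, fun j hj => absurd j.2 (not_lt.2 hj)⟩
  refine ⟨Nat.find hex, Nat.find_min' hex fun j hj => absurd j.2 (not_lt.2 hj),
    fun j => ⟨fun hj => ?_, Nat.find_spec hex j⟩⟩
  have h1 := Nat.find_min hex hj
  push Not at h1
  obtain ⟨i, hi, hi'⟩ := h1
  have h2 : (b j).re ≤ (b i).re := hb.monotone (show j ≤ i from hi)
  exact lt_of_le_of_ne (h2.trans hi') (hz j).symm

theorem strip_nonempty (hb : StrictMono fun j => (b j).re) (k : ℕ) : (Strip b k).Nonempty := by
  obtain ⟨x, h1, h2⟩ := Set.Finite.exists_between'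
    (s := (fun j => (b j).re) '' {j : Fin n | (j : ℕ) < k})
    (t := (fun j => (b j).re) '' {j : Fin n | k ≤ j}) (toFinite _) (toFinite _) (by
      rintro _ ⟨i, hi, rfl⟩ _ ⟨j, hj, rfl⟩
      exact hb (show (i : ℕ) < j from lt_of_lt_of_le hi hj))
  exact ⟨x, fun j => ⟨fun hj => h1 _ ⟨j, hj, rfl⟩, fun hj => h2 _ ⟨j, hj, rfl⟩⟩⟩

variable (b)

theorem contractible_up {e : ℝ} (he : e * e = 1) : ContractibleSpace (Up b e) := by
  obtain ⟨M, hM⟩ : ∃ M : ℝ, ∀ j, e * (b j).im < M := by
    obtain ⟨M, hM⟩ := (finite_range fun j => e * (b j).im).bddAbove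
    exact ⟨M + 1, fun j => lt_of_le_of_lt (hM ⟨j, rfl⟩) (by linarith)⟩
  have hhalf : ∀ z : ℂ, M ≤ e * z.im → z ∈ Up b e := by
    intro z hz j _
    have := hM j
    rw [mul_sub]
    linarith
  let m : ℂ → ℝ := fun z => max 0 (M - e * z.im)
  have hm : Continuous m := by fun_prop
  let sh : ℝ → ℂ → ℂ := fun s z => z + ((e * (s * m z) : ℝ) : ℂ) * Complex.I
  have hshre : ∀ s z, (sh s z).re = z.re := fun s z => by simp [sh]
  have hshim : ∀ s z, e * (sh s z).im = e * z.im + s * m z := fun s z => by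
    have : (sh s z).im = z.im + e * (s * m z) := by simp [sh]
    rw [this, mul_add, ← mul_assoc, he, one_mul]
  have hsh : ∀ s, 0 ≤ s → ∀ z ∈ Up b e, sh s z ∈ Up b e := by
    intro s hs z hz j hj
    rw [hshre] at hj
    have h1 := hz j hj
    have h2 : 0 ≤ s * m z := mul_nonneg hs (le_max_left _ _)
    rw [mul_sub] at h1 ⊢
    rw [hshim]
    linarith
  have hsh1 : ∀ z, M ≤ e * (sh 1 z).im := by
    intro z
    rw [hshim, one_mul]
    have := le_max_right 0 (M - e * z.im)
    linarith
  let c : ℂ := ((e * M : ℝ) : ℂ) * Complex.I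
  have hc : e * c.im = M := by
    have : c.im = e * M := by simp [c]
    rw [this, ← mul_assoc, he, one_mul]
  let r : C(Up b e, Up b e) := ⟨fun z => ⟨sh 1 z, hsh 1 zero_le_one z z.2⟩, by
    refine Continuous.subtype_mk ?_ _
    simp only [sh]
    fun_prop⟩
  rw [contractible_iff_id_nullhomotopic]
  refine ⟨⟨c, hhalf c hc.ge⟩, ContinuousMap.Homotopic.trans (g := r) ⟨?_⟩ ⟨?_⟩⟩
  · exact
      { toFun := fun p => ⟨sh p.1 p.2, hsh p.1 p.1.2.1 p.2 p.2.2⟩
        continuous_toFun := by
          refine Continuous.subtype_mk ?_ _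
          simp only [sh]
          fun_prop
        map_zero_left := fun z => Subtype.ext (by simp [sh])
        map_one_left := fun z => rfl }
  · exact
      { toFun := fun p => ⟨((1 - (p.1 : ℝ) : ℝ) : ℂ) * sh 1 p.2 + ((p.1 : ℝ) : ℂ) * c, hhalf _ (by
          have h1 := hsh1 p.2
          have h2 : (((1 - (p.1 : ℝ) : ℝ) : ℂ) * sh 1 p.2 + ((p.1 : ℝ) : ℂ) * c).im =
              (1 - (p.1 : ℝ)) * (sh 1 p.2).im + (p.1 : ℝ) * c.im := by
            simp only [Complex.add_im, Complex.mul_im, Complex.ofReal_re, Complex.ofReal_im,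
              zero_mul, add_zero]
          have h3 : 0 ≤ 1 - (p.1 : ℝ) := sub_nonneg.2 p.1.2.2
          have h4 := mul_le_mul_of_nonneg_left h1 h3
          rw [h2]
          calc M = (1 - (p.1 : ℝ)) * M + (p.1 : ℝ) * (e * c.im) := by rw [hc]; ring
            _ ≤ (1 - (p.1 : ℝ)) * (e * (sh 1 p.2).im) + (p.1 : ℝ) * (e * c.im) := by linarith
            _ = _ := by ring)⟩
        continuous_toFun := by
          refine Continuous.subtype_mk ?_ _
          simp only [sh]
          fun_prop
        map_zero_left := fun z => Subtype.ext (by simp [r])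
        map_one_left := fun z => Subtype.ext (by simp) }

theorem null_up {e : ℝ} (he : e * e = 1) :
    Null ((↑) ⁻¹' Up b e : Set ↥(range b)ᶜ) := by
  have := contractible_up b he
  have h := null_range (IsEmbedding.inclusion (up_subset b e))
  rwa [range_inclusion] at h

theorem isPathConnected_up {e : ℝ} (he : e * e = 1) :
    IsPathConnected ((↑) ⁻¹' Up b e : Set ↥(range b)ᶜ) := by
  have := contractible_up b he
  exact (isPathConnected_iff_pathConnectedSpace.2 inferInstance).preimage_coe (up_subset b e)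

variable {b}

theorem isPathConnected_strip (hb : StrictMono fun j => (b j).re) (k : ℕ) :
    IsPathConnected ((↑) ⁻¹' Strip b k : Set ↥(range b)ᶜ) :=
  ((convex_strip b k).isPathConnected (strip_nonempty hb k)).preimage_coe
    ((strip_subset b k 1).trans (up_subset b 1))

theorem pathConnectedSpace_compl (b : Fin n → ℂ) : PathConnectedSpace ↥(range b)ᶜ :=
  isPathConnected_iff_pathConnectedSpace.1
    ((finite_range b).countable.isPathConnected_compl_of_one_lt_rank
      (by rw [Complex.rank_real_complex]; norm_num))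

end Vale.Agent.P002Z
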