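import Vale.Agent.P002Z.Fill

/-!
# Topological surfaces: parametrised discs, complements of finite sets
-/

namespace Vale.Agent.P002Z

open Set Filter Topology Metric

variable {M : Type} [TopologicalSpace M] [ChartedSpace ℂ M]

theorem exists_disc (x : M) {O : Set M} (hO : O ∈ 𝓝 x) :
    ∃ j : ℂ → M, IsOpenEmbedding j ∧ j 0 = x ∧ range j ⊆ O := by
  let e := chartAt ℂ x
  have hx : x ∈ e.source := mem_chart_source ℂ x
  have h1 : e.target ∩ e.symm ⁻¹' O ∈ 𝓝 (e x) := by
    refine inter_mem (e.open_target.mem_nhds (e.map_source hx)) ?_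
    have := e.continuousAt_symm (e.map_source hx)
    rw [ContinuousAt, e.left_inv hx] at this
    exact this hO
  obtain ⟨r, hr, hb⟩ := Metric.mem_nhds_iff.1 h1
  let u : OpenPartialHomeomorph ℂ ℂ := OpenPartialHomeomorph.univBall (e x) r
  have hu : ∀ z, u z ∈ ball (e x) r := fun z => by
    rw [← OpenPartialHomeomorph.univBall_target (E := ℂ) (e x) hr]
    exact u.map_source (by rw [OpenPartialHomeomorph.univBall_source]; trivial)
  refine ⟨u.trans e.symm, OpenPartialHomeomorph.isOpenEmbedding _ ?_, ?_, ?_⟩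
  · rw [OpenPartialHomeomorph.trans_source, OpenPartialHomeomorph.univBall_source, univ_inter]
    exact eq_univ_of_forall fun z => (hb (hu z)).1
  · change e.symm (u 0) = x
    rw [OpenPartialHomeomorph.univBall_apply_zero, e.left_inv hx]
  · rintro _ ⟨z, rfl⟩
    exact (hb (hu z)).2

theorem exists_fill {S T : Set M} (hS : IsOpen S) (hT : IsOpen T) (hST : S ⊆ T)
    (hfin : ∀ x ∈ T, ∀ᶠ y in 𝓝[≠] x, y ∈ S) (O : M → Set M) (hO : ∀ x ∈ T, O x ∈ 𝓝 x) :
    ∃ D : FillData S T, D.ι = ⟨inclusion hST, continuous_inclusion hST⟩ ∧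
      ∀ (x : T) z, (D.j x z : M) ∈ O x := by
  have h : ∀ x : T, ∃ j : ℂ → M, IsOpenEmbedding j ∧ j 0 = x ∧
      range j ⊆ T ∩ O x ∩ {y | y ≠ x → y ∈ S} := fun x =>
    exists_disc (x : M) (inter_mem (inter_mem (hT.mem_nhds x.2) (hO x x.2))
      (eventually_nhdsWithin_iff.1 (hfin x x.2)))
  choose j h1 h2 h3 using h
  refine ⟨⟨⟨inclusion hST, continuous_inclusion hST⟩, IsOpenEmbedding.inclusion hST
    (hS.preimage continuous_subtype_val), fun x z => ⟨j x z, (h3 x ⟨z, rfl⟩).1.1⟩,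
    fun x => ?_, fun x => Subtype.ext (h2 x), fun x z hz => ?_⟩, rfl,
    fun x z => (h3 x ⟨z, rfl⟩).1.2⟩
  · exact IsOpenEmbedding.of_comp _ hT.isOpenEmbedding_subtypeVal (h1 x)
  · refine ⟨⟨j x z, (h3 x ⟨z, rfl⟩).2 fun h => hz ?_⟩, rfl⟩
    exact (h1 x).injective (h.trans (h2 x).symm)

theorem eventually_notMem_of_finite {M : Type} [TopologicalSpace M] [T1Space M] {F : Set M}
    (hF : F.Finite) (x : M) : ∀ᶠ y in 𝓝[≠] x, y ∈ Fᶜ := by
  have h : (F \ {x})ᶜ ∈ 𝓝 x :=
    (hF.subset sdiff_subset).isClosed.isOpen_compl.mem_nhds fun h => h.2 rfl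
  filter_upwards [mem_nhdsWithin_of_mem_nhds h, self_mem_nhdsWithin] with y h1 h2 h3
  exact h1 ⟨h3, h2⟩

theorem isPathConnected_compl_finite [T1Space M] [ConnectedSpace M] {F : Set M} (hF : F.Finite) :
    IsPathConnected Fᶜ := by
  have := ChartedSpace.locallyPathConnectedSpace ℂ M
  have := PathConnectedSpace.of_locallyPathConnectedSpace (X := M)
  have : PathConnectedSpace (univ : Set M) :=
    isPathConnected_iff_pathConnectedSpace.1 isPathConnected_univ
  obtain ⟨D, -⟩ := exists_fill hF.isClosed.isOpen_compl isOpen_univ (subset_univ _)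
    (fun x _ => eventually_notMem_of_finite hF x) (fun _ => univ) fun _ _ => univ_mem
  exact isPathConnected_iff_pathConnectedSpace.2 D.pathConnectedSpace

theorem neBot_nhdsNE (x : M) : (𝓝[≠] x).NeBot := by
  obtain ⟨j, h1, h2, -⟩ := exists_disc x univ_mem
  have h : Tendsto j (𝓝[≠] 0) (𝓝[≠] x) := by
    refine tendsto_nhdsWithin_iff.2 ⟨?_, ?_⟩
    · rw [← h2]
      exact h1.continuous.continuousAt.mono_left nhdsWithin_le_nhds
    · filter_upwards [self_mem_nhdsWithin] with z hz h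
      exact hz (h1.injective (h.trans h2.symm))
  exact h.neBot

theorem finite_of_eventually {M : Type} [TopologicalSpace M] [CompactSpace M] {C : Set M}
    (h : ∀ x, ∀ᶠ y in 𝓝[≠] x, y ∉ C) : C.Finite := by
  by_contra hC
  obtain ⟨x, hx⟩ := Set.Infinite.exists_accPt_principal hC
  exact (accPt_iff_frequently_nhdsNE.1 hx) (h x)

theorem tendsto_chart {M : Type} [TopologicalSpace M] (e : OpenPartialHomeomorph M ℂ) {x : M}
    (hx : x ∈ e.source) : Tendsto e (𝓝[≠] x) (𝓝[≠] (e x)) := by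
  refine tendsto_nhdsWithin_iff.2 ⟨(e.continuousAt hx).mono_left nhdsWithin_le_nhds, ?_⟩
  filter_upwards [self_mem_nhdsWithin, mem_nhdsWithin_of_mem_nhds (e.open_source.mem_nhds hx)]
    with y h1 h2 h3
  exact h1 (e.injOn h2 hx h3)

end Vale.Agent.P002Z
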